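import Vale.Agent.P050.H180.Ent3

set_option linter.all false

/-!
From the logarithmic inequality for positive symmetric kernels to graphs: Moebius ladders.
-/

namespace Vale.Agent.P050.H173

open Finset Vale.Agent.P050 Vale.Agent.P050.H148 Vale.Agent.P050.H180 Filter Topology

/-- the logarithmic inequality for positive symmetric kernels -/
def HalfLog (X : Type*) [Fintype X] [DecidableEq X] (M : ℕ) [NeZero (2 * M + 3)] : Prop :=
  ∀ V : X → X → ℝ, (∀ x y, 0 < V x y) → (∀ x y, V x y ≤ 1) → (∀ x y, V x y = V y x) →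
    (2 * (M : ℝ) + 7 / 2) * Real.log (zc V) - (2 * (M : ℝ) + 4) *
      Real.log (∑ a : X × X, V a.1 a.2) ≤ Real.log (ladSum V (2 * M + 3))

section fin

variable {X : Type*} [Fintype X] [DecidableEq X] [Nonempty X] {W : X → X → ℝ}

theorem half_pow {M : ℕ} [NeZero (2 * M + 3)] (H : HalfLog X M) (hW : ∀ x y, 0 < W x y)
    (hW1 : ∀ x y, W x y ≤ 1) (hs : ∀ x y, W x y = W y x) :
    zc W ^ (4 * M + 7) ≤
      (∑ a : X × X, W a.1 a.2) ^ (4 * M + 8) * ladSum W (2 * M + 3) ^ 2 := by
  have h1 : 0 < zc W := zc_pos hW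
  have h2 : 0 < ∑ a : X × X, W a.1 a.2 := sum_pos (fun a _ => hW _ _) univ_nonempty
  have h3 : 0 < ladSum W (2 * M + 3) := by
    unfold ladSum
    exact sum_pos (fun w _ => prod_pos fun i _ => mul_pos (hW _ _) (mul_pos (hW _ _) (hW _ _)))
      univ_nonempty
  have key := H W hW hW1 hs
  rw [← Real.log_le_log_iff (pow_pos h1 _) (mul_pos (pow_pos h2 _) (pow_pos h3 _)),
    Real.log_mul (pow_pos h2 _).ne' (pow_pos h3 _).ne', Real.log_pow, Real.log_pow, Real.log_pow]
  push_cast
  linarith

theorem half_le {M : ℕ} [NeZero (2 * M + 3)] (H : HalfLog X M) (h0 : ∀ x y, 0 ≤ W x y)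
    (h1 : ∀ x y, W x y ≤ 1) (hs : ∀ x y, W x y = W y x) :
    zc W ^ (4 * M + 7) ≤
      (∑ a : X × X, W a.1 a.2) ^ (4 * M + 8) * ladSum W (2 * M + 3) ^ 2 := by
  set V : ℝ → X → X → ℝ := fun ε x y => W x y + ε * (1 - W x y) with hV
  have hVc : ∀ x y, Continuous fun ε => V ε x y := fun x y => by
    simp only [hV]; fun_prop
  have hV0 : V 0 = W := by
    funext x y
    simp only [hV]; ring
  have c1 : Continuous fun ε => zc (V ε) ^ (4 * M + 7) := by
    refine Continuous.pow ?_ _
    unfold zc rr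
    refine continuous_finset_sum _ fun a _ => (hVc _ _).mul ?_
    refine continuous_finset_sum _ fun x' _ => continuous_finset_sum _ fun y' _ => ?_
    exact ((hVc _ _).mul (hVc _ _)).mul (hVc _ _)
  have c2 : Continuous fun ε => (∑ a : X × X, V ε a.1 a.2) ^ (4 * M + 8) *
      ladSum (V ε) (2 * M + 3) ^ 2 := by
    refine Continuous.mul (Continuous.pow ?_ _) (Continuous.pow ?_ _)
    · exact continuous_finset_sum _ fun a _ => hVc _ _
    · unfold ladSum
      refine continuous_finset_sum _ fun w _ => continuous_finset_prod _ fun i _ => ?_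
      exact (hVc _ _).mul ((hVc _ _).mul (hVc _ _))
  have t1 := (c1.tendsto 0).mono_left (nhdsWithin_le_nhds (s := Set.Ioc (0 : ℝ) 1))
  have t2 := (c2.tendsto 0).mono_left (nhdsWithin_le_nhds (s := Set.Ioc (0 : ℝ) 1))
  simp only [hV0] at t1 t2
  haveI : (𝓝[Set.Ioc (0 : ℝ) 1] 0).NeBot := by
    rw [← mem_closure_iff_nhdsWithin_neBot, closure_Ioc (by norm_num)]
    exact ⟨le_rfl, zero_le_one⟩
  refine le_of_tendsto_of_tendsto t1 t2 ?_
  filter_upwards [self_mem_nhdsWithin] with ε hε
  have hp : ∀ x y, 0 < V ε x y := by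
    intro x y
    simp only [hV]
    have e1 := h0 x y
    have e2 := h1 x y
    have e3 := hε.1
    have e4 := hε.2
    rcases e1.lt_or_eq with h | h
    · have : 0 ≤ ε * (1 - W x y) := mul_nonneg e3.le (by linarith)
      linarith
    · rw [← h]; linarith
  have hl : ∀ x y, V ε x y ≤ 1 := by
    intro x y
    simp only [hV]
    have e2 := h1 x y
    have e4 := hε.2
    nlinarith
  exact half_pow H hp hl fun x y => by simp only [hV]; rw [hs x y]

end fin

section graph

variable {X : Type*} [Fintype X]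

theorem adj_symm' (G : SimpleGraph X) (x y : X) : adj G x y = adj G y x := by
  classical
  unfold adj
  by_cases h : G.Adj x y
  · rw [if_pos h, if_pos h.symm]
  · rw [if_neg h, if_neg fun h' => h h'.symm]

/-- Moebius ladders and four-cycles, for graphs -/
theorem half_graph (G : SimpleGraph X) [Nonempty X] [DecidableEq X] (M : ℕ)
    [NeZero (2 * M + 3)] (H : HalfLog X M) :
    homDensity (SimpleGraph.cycleGraph 4) G ^ (4 * M + 7) ≤
      edgeDensity G ^ (4 * M + 8) * homDensity (moebiusLadder (2 * M + 3)) G ^ 2 := by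
  have hn : 0 < Fintype.card X := Fintype.card_pos
  have hn0 : (0 : ℝ) < Fintype.card X := by exact_mod_cast hn
  have h0 : ∀ x y, 0 ≤ adj G x y := fun x y => by simp only [adj]; split_ifs <;> norm_num
  have h1 : ∀ x y, adj G x y ≤ 1 := fun x y => by simp only [adj]; split_ifs <;> norm_num
  have hp := adj_sum G
  have hp' : ∑ a : X × X, adj G a.1 a.2 = edgeDensity G * (Fintype.card X : ℝ) ^ 2 := by
    rw [Fintype.sum_prod_type, ← hp]; field_simp
  have hfour : homDensity (SimpleGraph.cycleGraph 4) G * (Fintype.card X : ℝ) ^ 4 =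
      zc (adj G) := four_density G
  have key := half_le H h0 h1 (adj_symm' G)
  rw [hom_ladder]
  unfold ladderDensity
  rw [← ladSum_two]
  rw [← hfour, hp'] at key
  set n : ℝ := (Fintype.card X : ℝ) with hndef
  set T : ℝ := homDensity (SimpleGraph.cycleGraph 4) G with hT
  set p : ℝ := edgeDensity G with hpd
  have e1 : (T * n ^ 4) ^ (4 * M + 7) = T ^ (4 * M + 7) * n ^ (16 * M + 28) := by
    rw [mul_pow, ← pow_mul]; congr 2; ring
  have e2 : (p * n ^ 2) ^ (4 * M + 8) * ladSum (adj G) (2 * M + 3) ^ 2 =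
      p ^ (4 * M + 8) * (ladSum (adj G) (2 * M + 3) / n ^ (2 * (2 * M + 3))) ^ 2 *
        n ^ (16 * M + 28) := by
    have e3 : n ^ (16 * M + 28) = n ^ (2 * (4 * M + 8)) * (n ^ (2 * (2 * M + 3))) ^ 2 := by
      rw [← pow_mul, ← pow_add]; congr 1; ring
    rw [e3, mul_pow, ← pow_mul, div_pow]
    field_simp
  rw [e1, e2] at key
  exact le_of_mul_le_mul_right key (by positivity)

/-- all graphs: the excess exponent is at most one -/
theorem half_near (G : SimpleGraph X) [Nonempty X] [DecidableEq X] (M : ℕ)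
    [NeZero (2 * M + 3)] (H : HalfLog X M) :
    edgeDensity G ^ (3 * (2 * M + 3) + 1) ≤ homDensity (moebiusLadder (2 * M + 3)) G := by
  have hnn : 0 ≤ edgeDensity G := by unfold edgeDensity; positivity
  have ht : 0 ≤ homDensity (moebiusLadder (2 * M + 3)) G := by unfold homDensity; positivity
  rcases hnn.lt_or_eq with hpos | hz
  · have e1 := half_graph G M H
    have e2 := pow_le_pow_left₀ (by positivity) (four_ge G) (4 * M + 7)
    have e3 := e2.trans e1
    have e4 : (edgeDensity G ^ 4) ^ (4 * M + 7) =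
        edgeDensity G ^ (4 * M + 8) * (edgeDensity G ^ (3 * (2 * M + 3) + 1)) ^ 2 := by
      rw [← pow_mul, ← pow_mul, ← pow_add]; congr 1; ring
    rw [e4] at e3
    have e5 := le_of_mul_le_mul_left e3 (by positivity)
    exact (pow_le_pow_iff_left₀ (by positivity) ht two_ne_zero).mp e5
  · rw [← hz, zero_pow (by omega)]
    exact ht

end graph

end Vale.Agent.P050.H173
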