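import Vale.Agent.P050.H177.Att7

/-!
Attachments without the edges of the base graph: the marked vertices of `F` are not adjacent, and
they may have the same colour.
-/

namespace Vale.Agent.P050.H173

open Finset Vale.Agent.P050 Vale.Agent.P050.Lev Vale.Agent.P050.Cart Vale.Agent.P050.H177

/-- the colours of the vertices of the base graph: `k` is used as the end `t k` of the marked
pair -/
def baseCol {A P VK : Type} (s : A ⊕ (Bool ⊕ P) → Bool) (t : VK → Bool) : VK → Bool :=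
  fun k => s (Sum.inr (Sum.inl (t k)))

section

variable {A P VK J U : Type} [Fintype A] [Fintype P] [Fintype VK] [Fintype J]
  {F : SimpleGraph (A ⊕ (Bool ⊕ P))} {φ : J → VK × VK}
  {s : A ⊕ (Bool ⊕ P) → Bool} {t : VK → Bool} {W : U → U → ℝ}

theorem marked_not_adj (hz : ¬ F.Adj (Sum.inr (Sum.inl false)) (Sum.inr (Sum.inl true)))
    (b b' : Bool) : ¬ F.Adj (Sum.inr (Sum.inl b)) (Sum.inr (Sum.inl b')) := by
  cases b <;> cases b'
  · exact F.loopless.irrefl _
  · exact hz
  · exact fun h => hz (F.symm.symm _ _ h)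
  · exact F.loopless.irrefl _

theorem pprod_F0 (hz : ¬ F.Adj (Sum.inr (Sum.inl false)) (Sum.inr (Sum.inl true)))
    (hA : ∀ a b, ¬ F.Adj (Sum.inl a) (Sum.inr (Sum.inl b))) (r : A → U) (x y : U) (q : P → U) :
    pprod F s W (glueF r x y q) = rootProd F s W r * restProd F s W r x y q := by
  rw [pprod_three, bb_one (fun x : A => Sum.inl x) (fun y : Bool => Sum.inr (Sum.inl y)) _ hA,
    bb_one (fun y : Bool => Sum.inr (Sum.inl y)) (fun x : A => Sum.inl x) _
      fun b a h => hA a b (F.symm.symm _ _ h),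
    bb_one (fun y : Bool => Sum.inr (Sum.inl y)) (fun y : Bool => Sum.inr (Sum.inl y)) _
      (marked_not_adj hz)]
  have h2 : bb F s W (fun x : A => Sum.inl x) (fun x : A => Sum.inl x) (glueF r x y q) =
      rootProd F s W r := rfl
  rw [h2]
  unfold restProd
  ring

theorem phi_ne (hφ : ∀ j, t (φ j).1 = false ∧ t (φ j).2 = true) (j : J) :
    (φ j).1 ≠ (φ j).2 := by
  intro h
  have h1 := (hφ j).1
  rw [h, (hφ j).2] at h1
  exact Bool.false_ne_true h1.symm

theorem adj_one (hφ : ∀ j, t (φ j).1 = false ∧ t (φ j).2 = true) (j : J) (p : P) :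
    (attach F ⊥ φ).Adj (Sum.inr (Sum.inl (φ j).1)) (Sum.inr (Sum.inr (j, p))) ↔
      F.Adj (Sum.inr (Sum.inl false)) (Sum.inr (Sum.inr p)) := by
  constructor
  · rintro (⟨-, h⟩ | ⟨h, -⟩)
    · exact h
    · exact absurd h (phi_ne hφ j)
  · exact fun h => Or.inl ⟨rfl, h⟩

theorem adj_two (hφ : ∀ j, t (φ j).1 = false ∧ t (φ j).2 = true) (j : J) (p : P) :
    (attach F ⊥ φ).Adj (Sum.inr (Sum.inl (φ j).2)) (Sum.inr (Sum.inr (j, p))) ↔
      F.Adj (Sum.inr (Sum.inl true)) (Sum.inr (Sum.inr p)) := by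
  constructor
  · rintro (⟨h, -⟩ | ⟨-, h⟩)
    · exact absurd h.symm (phi_ne hφ j)
    · exact h
  · exact fun h => Or.inr ⟨rfl, h⟩

theorem adj_ne {k : VK} {j : J} {p : P} (h1 : k ≠ (φ j).1) (h2 : k ≠ (φ j).2) :
    ¬ (attach F ⊥ φ).Adj (Sum.inr (Sum.inl k)) (Sum.inr (Sum.inr (j, p))) := by
  rintro (⟨h, -⟩ | ⟨h, -⟩)
  · exact h1 h
  · exact h2 h

theorem pprod_H0 (hφ : ∀ j, t (φ j).1 = false ∧ t (φ j).2 = true) (r : A → U) (y : VK → U)
    (q : J × P → U) :
    pprod (attach F ⊥ φ) (attSide s (baseCol s t)) W (glueH r y q) =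
      rootProd F s W r * ∏ j, restProd F s W r (y (φ j).1) (y (φ j).2) fun p => q (j, p) := by
  classical
  rw [pprod_three,
    bb_one (fun x : A => Sum.inl x) (fun y : VK => Sum.inr (Sum.inl y)) _ fun a k h => h,
    bb_one (fun y : VK => Sum.inr (Sum.inl y)) (fun x : A => Sum.inl x) _ fun k a h => h,
    bb_one (fun y : VK => Sum.inr (Sum.inl y)) (fun y : VK => Sum.inr (Sum.inl y)) _
      fun k k' h => h]
  have h1 : bb (attach F ⊥ φ) (attSide s (baseCol s t)) W (fun x : A => Sum.inl x)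
      (fun x : A => Sum.inl x) (glueH r y q) = rootProd F s W r := rfl
  have h3 : bb (attach F ⊥ φ) (attSide s (baseCol s t)) W (fun x : A => Sum.inl x)
      (fun y : J × P => Sum.inr (Sum.inr y)) (glueH r y q) =
      ∏ j, bb F s W (fun x : A => Sum.inl x) (fun y : P => Sum.inr (Sum.inr y))
        (glueF r (y (φ j).1) (y (φ j).2) fun p => q (j, p)) := by
    unfold bb
    rw [Finset.prod_comm, Fintype.prod_prod_type]
    refine Finset.prod_congr rfl fun j _ => ?_
    rw [Finset.prod_comm]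
    rfl
  have h4 : bb (attach F ⊥ φ) (attSide s (baseCol s t)) W
      (fun y : J × P => Sum.inr (Sum.inr y))
      (fun x : A => Sum.inl x) (glueH r y q) =
      ∏ j, bb F s W (fun y : P => Sum.inr (Sum.inr y)) (fun x : A => Sum.inl x)
        (glueF r (y (φ j).1) (y (φ j).2) fun p => q (j, p)) := by
    unfold bb
    rw [Fintype.prod_prod_type]
    refine Finset.prod_congr rfl fun j _ => Finset.prod_congr rfl fun p _ =>
      Finset.prod_congr rfl fun a _ => ?_
    have e : (attach F ⊥ φ).Adj (Sum.inr (Sum.inr (j, p))) (Sum.inl a) ↔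
        F.Adj (Sum.inr (Sum.inr p)) (Sum.inl a) :=
      ⟨fun h => F.symm.symm _ _ h, fun h => F.symm.symm _ _ h⟩
    simp only [e]
    rfl
  have h5 : bb (attach F ⊥ φ) (attSide s (baseCol s t)) W
      (fun y : J × P => Sum.inr (Sum.inr y))
      (fun y : J × P => Sum.inr (Sum.inr y)) (glueH r y q) =
      ∏ j, bb F s W (fun y : P => Sum.inr (Sum.inr y)) (fun y : P => Sum.inr (Sum.inr y))
        (glueF r (y (φ j).1) (y (φ j).2) fun p => q (j, p)) := by
    unfold bb
    rw [Fintype.prod_prod_type]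
    refine Finset.prod_congr rfl fun j _ => Finset.prod_congr rfl fun p _ => ?_
    rw [Fintype.prod_prod_type, Finset.prod_eq_single j]
    · refine Finset.prod_congr rfl fun p' _ => ?_
      have e : (attach F ⊥ φ).Adj (Sum.inr (Sum.inr (j, p))) (Sum.inr (Sum.inr (j, p'))) ↔
          F.Adj (Sum.inr (Sum.inr p)) (Sum.inr (Sum.inr p')) :=
        ⟨fun h => h.2, fun h => ⟨rfl, h⟩⟩
      simp only [e]
      rfl
    · intro j' _ hj'
      exact Finset.prod_eq_one fun p' _ => if_neg fun h => hj' h.1.1.symm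
    · intro h
      exact absurd (mem_univ _) h
  have c1 : ∀ j, baseCol s t (φ j).1 = s (Sum.inr (Sum.inl false)) := fun j => by
    unfold baseCol
    rw [(hφ j).1]
  have c2 : ∀ j, baseCol s t (φ j).2 = s (Sum.inr (Sum.inl true)) := fun j => by
    unfold baseCol
    rw [(hφ j).2]
  have h6 : bb (attach F ⊥ φ) (attSide s (baseCol s t)) W (fun y : VK => Sum.inr (Sum.inl y))
      (fun y : J × P => Sum.inr (Sum.inr y)) (glueH r y q) =
      ∏ j, bb F s W (fun y : Bool => Sum.inr (Sum.inl y)) (fun y : P => Sum.inr (Sum.inr y))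
        (glueF r (y (φ j).1) (y (φ j).2) fun p => q (j, p)) := by
    unfold bb
    rw [Finset.prod_comm, Fintype.prod_prod_type]
    refine Finset.prod_congr rfl fun j _ => ?_
    rw [Fintype.prod_bool, ← Finset.prod_mul_distrib]
    refine Finset.prod_congr rfl fun p _ => ?_
    rw [Fintype.prod_eq_mul (φ j).1 (φ j).2 (phi_ne hφ j)
      fun k hk => if_neg fun h => adj_ne hk.1 hk.2 h.1, mul_comm]
    have e1 : ((attach F ⊥ φ).Adj (Sum.inr (Sum.inl (φ j).1)) (Sum.inr (Sum.inr (j, p))) ∧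
        attSide (J := J) s (baseCol s t) (Sum.inr (Sum.inl (φ j).1)) = false ∧
        attSide s (baseCol s t) (Sum.inr (Sum.inr (j, p))) = true) ↔
        (F.Adj (Sum.inr (Sum.inl false)) (Sum.inr (Sum.inr p)) ∧
        s (Sum.inr (Sum.inl false)) = false ∧ s (Sum.inr (Sum.inr p)) = true) := by
      rw [adj_one hφ, ← c1 j]
      rfl
    have e2 : ((attach F ⊥ φ).Adj (Sum.inr (Sum.inl (φ j).2)) (Sum.inr (Sum.inr (j, p))) ∧
        attSide (J := J) s (baseCol s t) (Sum.inr (Sum.inl (φ j).2)) = false ∧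
        attSide s (baseCol s t) (Sum.inr (Sum.inr (j, p))) = true) ↔
        (F.Adj (Sum.inr (Sum.inl true)) (Sum.inr (Sum.inr p)) ∧
        s (Sum.inr (Sum.inl true)) = false ∧ s (Sum.inr (Sum.inr p)) = true) := by
      rw [adj_two hφ, ← c2 j]
      rfl
    simp only [e1, e2]
    rfl
  have h7 : bb (attach F ⊥ φ) (attSide s (baseCol s t)) W
      (fun y : J × P => Sum.inr (Sum.inr y))
      (fun y : VK => Sum.inr (Sum.inl y)) (glueH r y q) =
      ∏ j, bb F s W (fun y : P => Sum.inr (Sum.inr y)) (fun y : Bool => Sum.inr (Sum.inl y))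
        (glueF r (y (φ j).1) (y (φ j).2) fun p => q (j, p)) := by
    unfold bb
    rw [Fintype.prod_prod_type]
    refine Finset.prod_congr rfl fun j _ => Finset.prod_congr rfl fun p _ => ?_
    rw [Fintype.prod_bool, Fintype.prod_eq_mul (φ j).1 (φ j).2 (phi_ne hφ j)
      fun k hk => if_neg fun h => adj_ne hk.1 hk.2 ((attach F ⊥ φ).symm.symm _ _ h.1), mul_comm]
    have e1 : ((attach F ⊥ φ).Adj (Sum.inr (Sum.inr (j, p))) (Sum.inr (Sum.inl (φ j).1)) ∧
        attSide s (baseCol s t) (Sum.inr (Sum.inr (j, p))) = false ∧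
        attSide (J := J) s (baseCol s t) (Sum.inr (Sum.inl (φ j).1)) = true) ↔
        (F.Adj (Sum.inr (Sum.inr p)) (Sum.inr (Sum.inl false)) ∧
        s (Sum.inr (Sum.inr p)) = false ∧ s (Sum.inr (Sum.inl false)) = true) := by
      rw [SimpleGraph.adj_comm, adj_one hφ, ← c1 j, SimpleGraph.adj_comm]
      rfl
    have e2 : ((attach F ⊥ φ).Adj (Sum.inr (Sum.inr (j, p))) (Sum.inr (Sum.inl (φ j).2)) ∧
        attSide s (baseCol s t) (Sum.inr (Sum.inr (j, p))) = false ∧
        attSide (J := J) s (baseCol s t) (Sum.inr (Sum.inl (φ j).2)) = true) ↔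
        (F.Adj (Sum.inr (Sum.inr p)) (Sum.inr (Sum.inl true)) ∧
        s (Sum.inr (Sum.inr p)) = false ∧ s (Sum.inr (Sum.inl true)) = true) := by
      rw [SimpleGraph.adj_comm, adj_two hφ, ← c2 j, SimpleGraph.adj_comm]
      rfl
    simp only [e1, e2]
    rfl
  rw [h1, h3, h4, h5, h6, h7]
  unfold restProd
  simp only [Finset.prod_mul_distrib]
  ring

end

section main

variable {A P VK J U : Type} [Fintype A] [Fintype P] [Fintype VK] [Fintype J]
  [DecidableEq A] [DecidableEq P] [DecidableEq VK] [DecidableEq J] [Fintype U]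
  {F : SimpleGraph (A ⊕ (Bool ⊕ P))} {φ : J → VK × VK}
  {s : A ⊕ (Bool ⊕ P) → Bool} {t : VK → Bool} {m : Bool → U → ℝ} {W : U → U → ℝ}

/-- the density of `attach F ⊥ φ` -/
theorem dens_H0 (hφ : ∀ j, t (φ j).1 = false ∧ t (φ j).2 = true) (cA : A → U → ℝ)
    (cK : VK → U → ℝ)
    (cP : P → U → ℝ) (c : A ⊕ (VK ⊕ (J × P)) → U → ℝ) (c1 : ∀ a, c (Sum.inl a) = cA a)
    (c2 : ∀ k, c (Sum.inr (Sum.inl k)) = cK k) (c3 : ∀ q, c (Sum.inr (Sum.inr q)) = cP q.2) :
    ∑ z : A ⊕ (VK ⊕ (J × P)) → U, (∏ v, m (attSide s (baseCol s t) v) (z v) * c v (z v)) *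
      ∏ e ∈ sideEdges (attach F ⊥ φ) (attSide s (baseCol s t)), W (z e.1) (z e.2) =
    ∑ r : A → U, ((∏ a, m (s (Sum.inl a)) (r a)) * rootProd F s W r) *
      ((∏ a, cA a (r a)) * ∑ y : VK → U,
        (∏ k, m (s (Sum.inr (Sum.inl (t k)))) (y k) * cK k (y k)) *
          ∏ j, hfun F s m W cP r (y (φ j).1) (y (φ j).2)) := by
  simp_rw [prod_sideEdges]
  rw [sum_glueH]
  refine Finset.sum_congr rfl fun r _ => ?_
  rw [Finset.mul_sum, Finset.mul_sum]
  refine Finset.sum_congr rfl fun y _ => ?_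
  have e1 : ∀ q : J × P → U,
      (∏ v, m (attSide s (baseCol s t) v) (glueH r y q v) * c v (glueH r y q v)) *
      pprod (attach F ⊥ φ) (attSide s (baseCol s t)) W (glueH r y q) =
      ((∏ a, m (s (Sum.inl a)) (r a)) * rootProd F s W r) * ((∏ a, cA a (r a)) *
        (∏ k, m (s (Sum.inr (Sum.inl (t k)))) (y k) * cK k (y k))) *
      ∏ j, ((∏ p, m (s (Sum.inr (Sum.inr p))) (q (j, p)) * cP p (q (j, p))) *
        restProd F s W r (y (φ j).1) (y (φ j).2) fun p => q (j, p)) := by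
    intro q
    rw [pprod_H0 hφ, Fintype.prod_sum_type, Fintype.prod_sum_type]
    simp only [c1, c2, c3]
    rw [Finset.prod_mul_distrib (s := (univ : Finset J)),
      ← Fintype.prod_prod_type fun q' : J × P => m (s (Sum.inr (Sum.inr q'.2))) (q q') *
        cP q'.2 (q q')]
    change ((∏ a, m (s (Sum.inl a)) (r a) * cA a (r a)) *
      ((∏ k, m (s (Sum.inr (Sum.inl (t k)))) (y k) * cK k (y k)) *
      ∏ q' : J × P, m (s (Sum.inr (Sum.inr q'.2))) (q q') * cP q'.2 (q q'))) * _ = _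
    rw [Finset.prod_mul_distrib (s := (univ : Finset A))]
    ring
  simp_rw [e1]
  rw [← Finset.mul_sum, sum_copies fun j q => (∏ p, m (s (Sum.inr (Sum.inr p))) (q p) *
    cP p (q p)) * restProd F s W r (y (φ j).1) (y (φ j).2) q]
  unfold hfun
  ring

/-- the density of `F` -/
theorem dens_F0 (hz : ¬ F.Adj (Sum.inr (Sum.inl false)) (Sum.inr (Sum.inl true)))
    (hA : ∀ a b, ¬ F.Adj (Sum.inl a) (Sum.inr (Sum.inl b))) (cA : A → U → ℝ)
    (cB : Bool → U → ℝ) (cP : P → U → ℝ) (c : A ⊕ (Bool ⊕ P) → U → ℝ)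
    (c1 : ∀ a, c (Sum.inl a) = cA a) (c2 : ∀ k, c (Sum.inr (Sum.inl k)) = cB k)
    (c3 : ∀ q, c (Sum.inr (Sum.inr q)) = cP q) :
    ∑ z : A ⊕ (Bool ⊕ P) → U, (∏ v, m (s v) (z v) * c v (z v)) *
      ∏ e ∈ sideEdges F s, W (z e.1) (z e.2) =
    ∑ r : A → U, ((∏ a, m (s (Sum.inl a)) (r a)) * rootProd F s W r) *
      ((∏ a, cA a (r a)) * ∑ x, ∑ y, m (s (Sum.inr (Sum.inl false))) x *
        m (s (Sum.inr (Sum.inl true))) y * (hfun F s m W cP r x y *
          (cB false x * cB true y))) := by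
  simp_rw [prod_sideEdges]
  rw [sum_glueF]
  refine Finset.sum_congr rfl fun r _ => ?_
  rw [Finset.mul_sum, Finset.mul_sum]
  refine Finset.sum_congr rfl fun x _ => ?_
  rw [Finset.mul_sum, Finset.mul_sum]
  refine Finset.sum_congr rfl fun y _ => ?_
  unfold hfun
  rw [Finset.sum_mul, Finset.mul_sum, Finset.mul_sum, Finset.mul_sum]
  refine Finset.sum_congr rfl fun q _ => ?_
  rw [pprod_F0 hz hA, Fintype.prod_sum_type, Fintype.prod_sum_type, Fintype.prod_bool]
  simp only [c1, c2, c3]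
  change ((∏ a, m (s (Sum.inl a)) (r a) * cA a (r a)) *
    ((m (s (Sum.inr (Sum.inl true))) y * cB true y) *
    (m (s (Sum.inr (Sum.inl false))) x * cB false x) *
      ∏ p, m (s (Sum.inr (Sum.inr p))) (q p) * cP p (q p))) * _ = _
  rw [Finset.prod_mul_distrib (s := (univ : Finset A))]
  ring

end main

/-- the inequality for `K`, with `N` copies of a function on the edges and weights of the
vertices -/
theorem attK0 {VK J U : Type} [Fintype VK] [Fintype J] [DecidableEq VK] [Fintype U]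
    {E : Finset (VK × VK)} {t : VK → Bool} {g : VK → ℕ} (hg : EDeg E t g) (hK : KSid E t)
    {r' s' : ℝ} (hr : 1 < r') (hs : 1 < s') (hre : (E.card : ℝ) = r' * sideCard t false)
    (hse : (E.card : ℝ) = s' * sideCard t true) (hE : 0 < E.card)
    {m : Bool → U → ℝ} (hm : ∀ b x, 0 ≤ m b x) (hm1 : ∀ b, ∑ x, m b x = 1)
    {φ : J → VK × VK} (hφ : ∀ j, φ j ∈ E)
    (hN : E.card ≤ Fintype.card J) {h : U → U → ℝ} (hh : ∀ x y, 0 ≤ h x y)
    {c : VK → U → ℝ} (hc : ∀ v x, 0 < c v x) :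
    (∑ x, ∑ y, m false x * m true y * (h x y *
      ((∏ v ∈ univ.filter (fun v => t v = false), c v x) ^ (1 / (Fintype.card J : ℝ)) *
      (∏ v ∈ univ.filter (fun v => t v = true), c v y) ^ (1 / (Fintype.card J : ℝ))))) ^
        Fintype.card J ≤
    ∑ y : VK → U, (∏ k, m (t k) (y k) * c k (y k)) * ∏ j, h (y (φ j).1) (y (φ j).2) := by
  classical
  set N := Fintype.card J with hNdef
  have hEr : (0 : ℝ) < E.card := by exact_mod_cast hE
  have hNr : (0 : ℝ) < N := by
    have : 0 < N := lt_of_lt_of_le hE hN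
    exact_mod_cast this
  have hNE : (E.card : ℝ) ≤ N := by exact_mod_cast hN
  set n : VK × VK → ℕ := fun e => (univ.filter fun j => φ j = e).card with hn
  set L : VK × VK → U → U → ℝ := fun e x y => h x y ^ n e with hL
  have hL0 : ∀ e x y, 0 ≤ L e x y := fun e x y => pow_nonneg (hh _ _) _
  have hsumn : ∑ e ∈ E, n e = N := by
    rw [hNdef, ← Finset.card_univ, Finset.card_eq_sum_card_fiberwise (f := φ) (t := E)
      fun j _ => hφ j]
  have hmain := full_norm hg hr hs hre hse hE hK (K := L) hm hm1 hL0 c hc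
  have hprod : ∀ y : VK → U, ∏ e ∈ E, L e (y e.1) (y e.2) =
      ∏ j, h (y (φ j).1) (y (φ j).2) := by
    intro y
    simp only [hL]
    rw [← Finset.prod_fiberwise_of_maps_to (s := (univ : Finset J)) (t := E) (g := φ)
      fun j _ => hφ j]
    refine Finset.prod_congr rfl fun e _ => ?_
    rw [Finset.prod_congr rfl (g := fun _ => h (y e.1) (y e.2)) fun j hj => by
      rw [(Finset.mem_filter.1 hj).2], Finset.prod_const]
  simp_rw [hprod] at hmain
  refine le_trans ?_ hmain
  have hmean : ∀ x y, emean E L x y = h x y ^ ((N : ℝ) / E.card) := by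
    intro x y
    unfold emean
    rw [Real.finset_prod_rpow E (fun e => L e x y) (fun e _ => hL0 e x y)]
    simp only [hL]
    rw [Finset.prod_pow_eq_pow_sum, hsumn, ← Real.rpow_natCast (h x y), ← Real.rpow_mul (hh x y),
      mul_one_div]
  set κ : ℝ := (N : ℝ) / E.card with hκ
  have hκ1 : 1 ≤ κ := by
    rw [hκ, le_div_iff₀ hEr, one_mul]
    exact hNE
  set D : Bool → U → ℝ := fun b x =>
    (∏ v ∈ univ.filter (fun v => t v = b), c v x) ^ (1 / (N : ℝ)) with hD
  have hD0 : ∀ b x, 0 < D b x := fun b x =>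
    Real.rpow_pos_of_pos (Finset.prod_pos fun v _ => hc v x) _
  have hvm : ∀ b x, vmean E t c b x = D b x ^ κ := by
    intro b x
    simp only [hD, vmean]
    rw [← Real.rpow_mul (Finset.prod_pos fun v _ => hc v x).le, hκ]
    congr 1
    field_simp
  -- the power mean inequality
  set wt : U × U → ℝ := fun p => m false p.1 * m true p.2 with hwt
  have hwt0 : ∀ p ∈ (univ : Finset (U × U)), 0 ≤ wt p := fun p _ =>
    mul_nonneg (hm _ _) (hm _ _)
  have hwt1 : ∑ p, wt p = 1 := by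
    rw [Fintype.sum_prod_type]
    simp only [hwt]
    simp_rw [← Finset.mul_sum, hm1, mul_one]
    exact hm1 _
  set X : U × U → ℝ := fun p => h p.1 p.2 * (D false p.1 * D true p.2) with hX
  have hX0 : ∀ p ∈ (univ : Finset (U × U)), 0 ≤ X p := fun p _ =>
    mul_nonneg (hh _ _) (mul_nonneg (hD0 _ _).le (hD0 _ _).le)
  have hpm := Real.rpow_arith_mean_le_arith_mean_rpow univ wt X hwt0 hwt1 hX0 hκ1
  have e1 : ∑ p, wt p * X p = ∑ x, ∑ y, m false x * m true y *
      (h x y * (D false x * D true y)) := by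
    rw [Fintype.sum_prod_type]
  have e2 : ∑ p, wt p * X p ^ κ = ∑ x, ∑ y, m false x * m true y *
      (emean E L x y * (vmean E t c false x * vmean E t c true y)) := by
    rw [Fintype.sum_prod_type]
    refine Finset.sum_congr rfl fun x _ => Finset.sum_congr rfl fun y _ => ?_
    simp only [hwt, hX]
    rw [Real.mul_rpow (hh x y) (mul_nonneg (hD0 _ _).le (hD0 _ _).le),
      Real.mul_rpow (hD0 _ _).le (hD0 _ _).le, hmean, hvm, hvm]
  have hS0 : 0 ≤ ∑ p, wt p * X p :=
    Finset.sum_nonneg fun p hp => mul_nonneg (hwt0 p hp) (hX0 p hp)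
  calc (∑ x, ∑ y, m false x * m true y * (h x y * (D false x * D true y))) ^ N
      = ((∑ p, wt p * X p) ^ κ) ^ E.card := by
        rw [← e1, ← Real.rpow_natCast, ← Real.rpow_natCast (_ ^ κ), ← Real.rpow_mul hS0, hκ,
          div_mul_cancel₀ _ hEr.ne']
    _ ≤ (∑ p, wt p * X p ^ κ) ^ E.card :=
        pow_le_pow_left₀ (Real.rpow_nonneg hS0 _) hpm _
    _ = _ := by rw [e2]

end Vale.Agent.P050.H173
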