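import Vale.Agent.P050.H173.Base1

/-!
Attachments without the edges of the base graph: the theorem.
-/

namespace Vale.Agent.P050.H173

open Finset Vale.Agent.P050 Vale.Agent.P050.Lev Vale.Agent.P050.Cart Vale.Agent.P050.H177

section main

variable {A P VK J U : Type} [Fintype A] [Fintype P] [Fintype VK] [Fintype J]
  [DecidableEq A] [DecidableEq P] [DecidableEq VK] [DecidableEq J] [Fintype U]
  {F : SimpleGraph (A ⊕ (Bool ⊕ P))} {K : SimpleGraph VK} {φ : J → VK × VK}
  {s : A ⊕ (Bool ⊕ P) → Bool} {t : VK → Bool} {m : Bool → U → ℝ} {W : U → U → ℝ}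

/-- the main inequality -/
theorem base_core (hF : GSid F s) (hK : GSid K t)
    (hKlt : ∀ b, Nat.card {v // t v = b} < Nat.card K.edgeSet)
    (hz : ¬ F.Adj (Sum.inr (Sum.inl false)) (Sum.inr (Sum.inl true)))
    (hA : ∀ a b, ¬ F.Adj (Sum.inl a) (Sum.inr (Sum.inl b)))
    (hfor : (F.comap (Sum.inl : A → A ⊕ (Bool ⊕ P))).IsAcyclic)
    (hφ : ∀ j, K.Adj (φ j).1 (φ j).2 ∧ t (φ j).1 = false)
    (hN : Nat.card K.edgeSet ≤ Nat.card J)
    (hm : ∀ b x, 0 ≤ m b x) (hm1 : ∀ b, ∑ x, m b x = 1)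
    (hW : ∀ x y, 0 ≤ W x y) (hrow : ∀ x, ∑ y, m true y * W x y = 1)
    (hcol : ∀ y, ∑ x, m false x * W x y = 1)
    {cA : A → U → ℝ} {cK : VK → U → ℝ} {cP : P → U → ℝ} (hcA : ∀ a x, 0 < cA a x)
    (hcK : ∀ a x, 0 < cK a x) (hcP : ∀ a x, 0 < cP a x)
    (hbal : ∀ b x, ∑ a ∈ univ.filter (fun a => s (Sum.inl a) = b), Real.log (cA a x) +
      ∑ k ∈ univ.filter (fun k => baseCol s t k = b), Real.log (cK k x) + Nat.card J *
      ∑ p ∈ univ.filter (fun p => s (Sum.inr (Sum.inr p)) = b), Real.log (cP p x) = 0)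
    (c : A ⊕ (VK ⊕ (J × P)) → U → ℝ) (c1 : ∀ a, c (Sum.inl a) = cA a)
    (c2 : ∀ k, c (Sum.inr (Sum.inl k)) = cK k) (c3 : ∀ q, c (Sum.inr (Sum.inr q)) = cP q.2) :
    1 ≤ ∑ z : A ⊕ (VK ⊕ (J × P)) → U, (∏ v, m (attSide s (baseCol s t) v) (z v) * c v (z v)) *
      ∏ e ∈ sideEdges (attach F ⊥ φ) (attSide s (baseCol s t)), W (z e.1) (z e.2) := by
  classical
  have hφ' : ∀ j, t (φ j).1 = false ∧ t (φ j).2 = true := by
    intro j
    refine ⟨(hφ j).2, ?_⟩
    have h1 := hK.1 _ _ (hφ j).1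
    rw [(hφ j).2] at h1
    cases h2 : t (φ j).2
    · exact absurd h2.symm h1
    · rfl
  have hφE : ∀ j, φ j ∈ sideEdges K t := by
    intro j
    unfold sideEdges
    rw [Finset.mem_filter]
    exact ⟨mem_univ _, (hφ j).1, hφ' j⟩
  rw [Nat.card_eq_fintype_card (α := J)] at hN hbal
  set N := Fintype.card J with hNdef
  have hE : 0 < (sideEdges K t).card := by
    rw [card_sideEdges K t hK.1]
    exact lt_of_le_of_lt (Nat.zero_le _) (hKlt true)
  rw [← card_sideEdges K t hK.1] at hKlt hN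
  have p0 := side_pos hK.1 false hE
  have p1 := side_pos hK.1 true hE
  obtain ⟨r1, r2, -⟩ := ratio_facts p0 (by rw [sideCard_eq]; exact hKlt false)
  obtain ⟨s1, s2, -⟩ := ratio_facts p1 (by rw [sideCard_eq]; exact hKlt true)
  have hNpos : 0 < N := lt_of_lt_of_le hE hN
  have hNr : (0 : ℝ) < N := by exact_mod_cast hNpos
  rw [dens_H0 hφ' cA cK cP c c1 c2 c3]
  set D : Bool → U → ℝ := fun b x =>
    (∏ v ∈ univ.filter (fun v => t v = b), cK v x) ^ (1 / (N : ℝ)) with hD
  have hD0 : ∀ b x, 0 < D b x := fun b x =>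
    Real.rpow_pos_of_pos (Finset.prod_pos fun v _ => hcK v x) _
  set lam : (A → U) → ℝ := fun r => (∏ a, m (s (Sum.inl a)) (r a)) * rootProd F s W r with hlam
  have hlam0 : ∀ r, 0 ≤ lam r := fun r =>
    mul_nonneg (Finset.prod_nonneg fun a _ => hm _ _) (pprod_nonneg hW _)
  have hlam1 : ∑ r, lam r = 1 := by
    refine forest_dens hm1 hrow hcol (Fintype.card A) A
      (F.comap (Sum.inl : A → A ⊕ (Bool ⊕ P))) (fun a => s (Sum.inl a)) hfor
      (fun a b h => hF.1 _ _ h) rfl
  set mK : Bool → U → ℝ := fun d x => m (s (Sum.inr (Sum.inl d))) x with hmK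
  set X : (A → U) → ℝ := fun r => ∑ x, ∑ y, mK false x * mK true y *
    (hfun F s m W cP r x y * (D false x * D true y)) with hX
  have hX0 : ∀ r, 0 ≤ X r := fun r => Finset.sum_nonneg fun x _ => Finset.sum_nonneg fun y _ =>
    mul_nonneg (mul_nonneg (hm _ _) (hm _ _))
      (mul_nonneg (hfun_nonneg hm hW hcP _ _ _) (mul_nonneg (hD0 _ _).le (hD0 _ _).le))
  have hKstep : ∀ r, X r ^ N ≤ ∑ y : VK → U, (∏ k, mK (t k) (y k) * cK k (y k)) *
      ∏ j, hfun F s m W cP r (y (φ j).1) (y (φ j).2) := fun r =>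
    attK0 (m := mK) (edeg_graph hK.1) hK.2 r1 s1 r2 s2 hE (fun b x => hm _ x)
      (fun b => hm1 _) hφE hN (fun x y => hfun_nonneg hm hW hcP r x y) hcK
  have hcA0 : ∀ r : A → U, 0 < ∏ a, cA a (r a) := fun r => Finset.prod_pos fun a _ => hcA _ _
  -- Jensen's inequality over the roots
  set Y : (A → U) → ℝ := fun r => (∏ a, cA a (r a)) ^ (1 / (N : ℝ)) * X r with hY
  have hY0 : ∀ r, 0 ≤ Y r := fun r => mul_nonneg (Real.rpow_nonneg (hcA0 r).le _) (hX0 r)
  have hJ := Real.pow_arith_mean_le_arith_mean_pow univ lam Y (fun r _ => hlam0 r) hlam1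
    (fun r _ => hY0 r) N
  have hYN : ∀ r, Y r ^ N = (∏ a, cA a (r a)) * X r ^ N := by
    intro r
    simp only [hY]
    rw [mul_pow, ← Real.rpow_natCast (_ ^ (1 / (N : ℝ))), ← Real.rpow_mul (hcA0 r).le,
      one_div_mul_cancel hNr.ne', Real.rpow_one]
  -- the density of `F`
  set cA' : A → U → ℝ := fun a x => cA a x ^ (1 / (N : ℝ)) with hcA'
  have hFd : ∑ r, lam r * Y r = ∑ z : A ⊕ (Bool ⊕ P) → U,
      (∏ v, m (s v) (z v) * (Sum.elim cA' (Sum.elim D cP) : A ⊕ (Bool ⊕ P) → U → ℝ) v (z v)) *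
        ∏ e ∈ sideEdges F s, W (z e.1) (z e.2) := by
    rw [dens_F0 hz hA cA' D cP (Sum.elim cA' (Sum.elim D cP)) (fun _ => rfl) (fun _ => rfl)
      (fun _ => rfl)]
    refine Finset.sum_congr rfl fun r _ => ?_
    simp only [hlam, hY, hX, hcA', hmK]
    rw [Real.finset_prod_rpow univ (fun a => cA a (r a)) fun a _ => (hcA _ _).le]
  have hlogD : ∀ b x, Real.log (D b x) = (1 / (N : ℝ)) *
      ∑ k ∈ univ.filter (fun k => t k = b), Real.log (cK k x) := by
    intro b x
    simp only [hD]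
    rw [Real.log_rpow (Finset.prod_pos fun v _ => hcK v x), Real.log_prod
      fun v _ => (hcK v x).ne']
  have hone : 1 ≤ ∑ r, lam r * Y r := by
    rw [hFd]
    refine one_le_wdens hF.2 hm hm1 hW hrow hcol ?_ ?_
    · rintro (a | b | p) x
      · exact Real.rpow_pos_of_pos (hcA _ _) _
      · exact hD0 _ _
      · exact hcP _ _
    · intro b x
      rw [sum_filter_sum, sum_filter_sum fun v => s (Sum.inr v)]
      have e1 : ∑ a ∈ univ.filter (fun a => s (Sum.inl a) = b),
          Real.log ((Sum.elim cA' (Sum.elim D cP) : A ⊕ (Bool ⊕ P) → U → ℝ) (Sum.inl a) x) =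
          (1 / (N : ℝ)) * ∑ a ∈ univ.filter (fun a => s (Sum.inl a) = b), Real.log (cA a x) := by
        rw [Finset.mul_sum]
        refine Finset.sum_congr rfl fun a _ => ?_
        simp only [Sum.elim_inl, hcA']
        rw [Real.log_rpow (hcA _ _)]
      have e2 : ∑ d ∈ univ.filter (fun d : Bool => s (Sum.inr (Sum.inl d)) = b),
          Real.log ((Sum.elim cA' (Sum.elim D cP) : A ⊕ (Bool ⊕ P) → U → ℝ)
            (Sum.inr (Sum.inl d)) x) =
          (1 / (N : ℝ)) * ∑ k ∈ univ.filter (fun k => baseCol s t k = b),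
            Real.log (cK k x) := by
        have h1 : ∀ d ∈ univ.filter (fun d : Bool => s (Sum.inr (Sum.inl d)) = b),
            Real.log ((Sum.elim cA' (Sum.elim D cP) : A ⊕ (Bool ⊕ P) → U → ℝ)
            (Sum.inr (Sum.inl d)) x) = (1 / (N : ℝ)) *
            ∑ k ∈ (univ.filter fun k => baseCol s t k = b).filter (fun k => t k = d),
              Real.log (cK k x) := by
          intro d hd
          rw [Finset.mem_filter] at hd
          refine (hlogD d x).trans ?_
          congr 2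
          ext k
          rw [Finset.mem_filter, Finset.mem_filter, Finset.mem_filter]
          constructor
          · rintro ⟨h1, h2⟩
            refine ⟨⟨h1, ?_⟩, h2⟩
            unfold baseCol
            rw [h2]
            exact hd.2
          · rintro ⟨⟨h1, -⟩, h2⟩
            exact ⟨h1, h2⟩
        rw [Finset.sum_congr rfl h1, ← Finset.mul_sum]
        congr 1
        refine Finset.sum_fiberwise_of_maps_to (g := t) ?_ _
        intro k hk
        rw [Finset.mem_filter] at hk ⊢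
        exact ⟨mem_univ _, hk.2⟩
      have e3 : ∑ p ∈ univ.filter (fun p : P => s (Sum.inr (Sum.inr p)) = b),
          Real.log ((Sum.elim cA' (Sum.elim D cP) : A ⊕ (Bool ⊕ P) → U → ℝ)
            (Sum.inr (Sum.inr p)) x) =
          ∑ p ∈ univ.filter (fun p : P => s (Sum.inr (Sum.inr p)) = b), Real.log (cP p x) := rfl
      rw [e1, e2, e3]
      have hb := hbal b x
      have h4 : (N : ℝ)⁻¹ * (∑ a ∈ univ.filter (fun a => s (Sum.inl a) = b), Real.log (cA a x) +
        ∑ k ∈ univ.filter (fun k => baseCol s t k = b), Real.log (cK k x) + N *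
        ∑ p ∈ univ.filter (fun p => s (Sum.inr (Sum.inr p)) = b), Real.log (cP p x)) = 0 := by
        rw [hb, mul_zero]
      rw [mul_add, mul_add, inv_mul_cancel_left₀ hNr.ne'] at h4
      rw [one_div]
      linarith
  calc (1 : ℝ) ≤ (∑ r, lam r * Y r) ^ N := one_le_pow₀ hone
    _ ≤ ∑ r, lam r * Y r ^ N := hJ
    _ ≤ _ := by
      refine Finset.sum_le_sum fun r _ => ?_
      rw [hYN]
      exact mul_le_mul_of_nonneg_left (mul_le_mul_of_nonneg_left (hKstep r) (hcA0 r).le)
        (hlam0 r)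

end main

section main

variable {A P VK J : Type} {F : SimpleGraph (A ⊕ (Bool ⊕ P))} {K : SimpleGraph VK}
  {φ : J → VK × VK} {s : A ⊕ (Bool ⊕ P) → Bool} {t : VK → Bool}

theorem base_proper (hF : ∀ u v, F.Adj u v → s u ≠ s v)
    (hφ : ∀ j, t (φ j).1 = false ∧ t (φ j).2 = true) :
    ∀ u v, (attach F ⊥ φ).Adj u v → attSide s (baseCol s t) u ≠ attSide s (baseCol s t) v := by
  have h0 : ∀ (q : J × P) (k : VK), ((k = (φ q.1).1 ∧
      F.Adj (Sum.inr (Sum.inl false)) (Sum.inr (Sum.inr q.2))) ∨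
        (k = (φ q.1).2 ∧ F.Adj (Sum.inr (Sum.inl true)) (Sum.inr (Sum.inr q.2)))) →
      baseCol s t k ≠ s (Sum.inr (Sum.inr q.2)) := by
    intro q k h
    unfold baseCol
    rcases h with ⟨rfl, h⟩ | ⟨rfl, h⟩
    · rw [(hφ q.1).1]
      exact hF _ _ h
    · rw [(hφ q.1).2]
      exact hF _ _ h
  rintro (a | k | q) (b | l | q') h
  · exact hF _ _ h
  · exact h.elim
  · exact hF _ _ h
  · exact h.elim
  · exact h.elim
  · exact h0 q' k h
  · exact (hF _ _ h).symm
  · exact (h0 q l h).symm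
  · exact hF _ _ h.2

variable [Fintype A] [Fintype P] [Fintype VK] [Fintype J]
  [DecidableEq A] [DecidableEq P] [DecidableEq VK] [DecidableEq J]

/-- **Attachments without the edges of the base graph.** -/
theorem base_gsid (hF : GSid F s) (hK : GSid K t)
    (hKlt : ∀ b, Nat.card {v // t v = b} < Nat.card K.edgeSet)
    (hz : ¬ F.Adj (Sum.inr (Sum.inl false)) (Sum.inr (Sum.inl true)))
    (hA : ∀ a b, ¬ F.Adj (Sum.inl a) (Sum.inr (Sum.inl b)))
    (hfor : (F.comap (Sum.inl : A → A ⊕ (Bool ⊕ P))).IsAcyclic)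
    (hφ : ∀ j, K.Adj (φ j).1 (φ j).2 ∧ t (φ j).1 = false)
    (hN : Nat.card K.edgeSet ≤ Nat.card J)
    (hlt : ∀ b, Nat.card {v // attSide (J := J) s (baseCol s t) v = b} <
      Nat.card (attach F ⊥ φ).edgeSet) :
    GSid (attach F ⊥ φ) (attSide s (baseCol s t)) := by
  classical
  have hφ' : ∀ j, t (φ j).1 = false ∧ t (φ j).2 = true := by
    intro j
    refine ⟨(hφ j).2, ?_⟩
    have h1 := hK.1 _ _ (hφ j).1
    rw [(hφ j).2] at h1
    cases h2 : t (φ j).2
    · exact absurd h2.symm h1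
    · rfl
  have h := base_proper (F := F) hF.1 hφ'
  refine ⟨h, ?_⟩
  have hE : 0 < (sideEdges (attach F ⊥ φ) (attSide s (baseCol s t))).card := by
    rw [card_sideEdges _ _ h]
    exact lt_of_le_of_lt (Nat.zero_le _) (hlt true)
  have p0 := side_pos h false hE
  have p1 := side_pos h true hE
  rw [← card_sideEdges _ _ h] at hlt
  obtain ⟨r1, r2, -⟩ := ratio_facts p0 (by rw [sideCard_eq]; exact hlt false)
  obtain ⟨s1, s2, -⟩ := ratio_facts p1 (by rw [sideCard_eq]; exact hlt true)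
  refine (ksid_iff_pot (edeg_graph h) r1 s1 r2 s2 hE).2 ?_
  intro U _ m W u hn hu
  obtain ⟨hm, hm1, hW, hrow, hcol, -⟩ := hn
  set r' : ℝ := ((sideEdges (attach F ⊥ φ) (attSide s (baseCol s t))).card : ℝ) /
    sideCard (attSide (J := J) s (baseCol s t)) false with hr'
  set s' : ℝ := ((sideEdges (attach F ⊥ φ) (attSide s (baseCol s t))).card : ℝ) /
    sideCard (attSide (J := J) s (baseCol s t)) true with hs'
  set c : A ⊕ (VK ⊕ (J × P)) → U → ℝ := fun v x => u (attSide s (baseCol s t) v) x ^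
    ((if attSide s (baseCol s t) v then s' else r') -
      Nat.card ((attach F ⊥ φ).neighborSet v)) with hc
  have hcpos : ∀ v x, 0 < c v x := fun v x => Real.rpow_pos_of_pos (hu _ _) _
  set cP : P → U → ℝ := fun p x => u (s (Sum.inr (Sum.inr p))) x ^
    ((if s (Sum.inr (Sum.inr p)) then s' else r') -
      Nat.card (F.neighborSet (Sum.inr (Sum.inr p)))) with hcP
  have hcPpos : ∀ v x, 0 < cP v x := fun v x => Real.rpow_pos_of_pos (hu _ _) _
  have c3 : ∀ q : J × P, c (Sum.inr (Sum.inr q)) = cP q.2 := by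
    rintro ⟨j, p⟩
    funext x
    simp only [hc, hcP]
    rw [card_nbr hφ' j p]
    rfl
  have hbalH : ∀ b x, ∑ v ∈ univ.filter (fun v => attSide (J := J) s (baseCol s t) v = b),
      Real.log (c v x) = 0 := by
    intro b x
    have e1 : ∀ v ∈ univ.filter (fun v => attSide (J := J) s (baseCol s t) v = b),
        Real.log (c v x) =
        ((if b then s' else r') - Nat.card ((attach F ⊥ φ).neighborSet v)) *
          Real.log (u b x) := by
      intro v hv
      have hv' := (Finset.mem_filter.1 hv).2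
      simp only [hc]
      rw [Real.log_rpow (hu _ _), hv']
    rw [Finset.sum_congr rfl e1, ← Finset.sum_mul, (edeg_graph h).balance r2 s2 b, zero_mul]
  have hbal : ∀ b x, ∑ a ∈ univ.filter (fun a => s (Sum.inl a) = b),
      Real.log (c (Sum.inl a) x) + ∑ k ∈ univ.filter (fun k => baseCol s t k = b),
      Real.log (c (Sum.inr (Sum.inl k)) x) + Nat.card J *
      ∑ p ∈ univ.filter (fun p => s (Sum.inr (Sum.inr p)) = b), Real.log (cP p x) = 0 := by
    intro b x
    rw [← hbalH b x, sum_filter_sum,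
      sum_filter_sum fun v => attSide (J := J) s (baseCol s t) (Sum.inr v),
      ← sum_JP (J := J) (fun p => s (Sum.inr (Sum.inr p))) b fun p => Real.log (cP p x),
      add_assoc]
    congr 2
    refine Finset.sum_congr rfl fun q _ => ?_
    rw [c3]
  exact base_core hF hK hKlt hz hA hfor hφ hN hm hm1 hW hrow hcol
    (cA := fun a => c (Sum.inl a)) (cK := fun k => c (Sum.inr (Sum.inl k)))
    (fun a x => hcpos _ _) (fun a x => hcpos _ _) hcPpos hbal c (fun _ => rfl) (fun _ => rfl) c3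

end main

end Vale.Agent.P050.H173
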