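import Vale.Agent.P050.H180.Ent3

set_option linter.all false

/-!
Ladders with an odd number of rungs, prisms and four-cycles: the logarithmic inequalities.
-/

namespace Vale.Agent.P050.H173

open Finset Vale.Agent.P050.H148 Vale.Agent.P050.H180

section chain

variable {V : Type*} [Fintype V] [Nonempty V] {Q : V → V → ℝ} {r : V → ℝ}

theorem en_tele' (hQ : ∀ a b, 0 < Q a b) (h1 : ∀ a, ∑ b, Q a b = 1) (hr : ∀ a, 0 < r a)
    (hs : ∀ b, ∑ a, r a * Q a b = r b) (J d : ℕ) :
    ((d : ℝ) + 1) * (en Q r (J + d) - en Q r (J + d + 1)) ≤ en Q r J - en Q r (J + d + 1) := by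
  induction d with
  | zero => simp
  | succ d ih =>
    have e1 := en_conv hQ h1 hr hs (J + d)
    have e2 : ((d : ℝ) + 1) * (en Q r (J + d + 1) - en Q r (J + d + 2)) ≤
        ((d : ℝ) + 1) * (en Q r (J + d) - en Q r (J + d + 1)) :=
      mul_le_mul_of_nonneg_left e1 (by positivity)
    have e3 : J + (d + 1) = J + d + 1 := rfl
    rw [e3]
    push_cast
    linarith

end chain

section global_

variable {X : Type*} [Fintype X] [DecidableEq X] {W : X → X → ℝ}

theorem even_total (h0 : ∀ x y, 0 ≤ W x y) (J : ℕ) [NeZero (2 * (J + 1))] :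
    ladSum W (2 * (J + 1)) = ∑ e : X × X, ∑ a, kp (lad W) J e a ^ 2 := by
  obtain ⟨l, f, hL⟩ := exists_eig (lad W) (lad_symm W)
  rw [ladSum_eq h0 hL]
  have e1 : ∀ e : X × X, ∑ a, kp (lad W) J e a ^ 2 =
      ∑ i, l i ^ (2 * (J + 1)) * (f i e * f i e) := by
    intro e
    rw [← hL.parseval]
    refine sum_congr rfl fun i _ => ?_
    have : ∑ a, f i a * kp (lad W) J e a = l i ^ (J + 1) * f i e := by
      rw [← pw_coef hL]
      exact sum_congr rfl fun a _ => by rw [kp_pw]
    rw [this, mul_pow, ← pow_mul]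
    ring
  simp only [e1]
  rw [sum_comm]
  refine sum_congr rfl fun i _ => ?_
  rw [← mul_sum, hL.orth, if_pos rfl, mul_one]

variable [Nonempty X]

/-- prisms -/
theorem prism_log (hW : ∀ x y, 0 < W x y) (J : ℕ) [NeZero (2 * (J + 1))] :
    2 * ((J : ℝ) + 1) * (∑ a, rho W a * Real.log (rr W a)) + (en (qq W) (rho W) J -
      ∑ a, rho W a * Real.log (rho W a)) ≤ Real.log (ladSum W (2 * (J + 1))) := by
  rw [even_total (fun x y => (hW x y).le) J]
  have hr0 : ∀ a, 0 < rho W a := rho_pos hW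
  have hr1 : ∑ a, rho W a = 1 := rho_sum hW
  have hQ0 : ∀ a b, 0 < qq W a b := qq_pos hW
  have hQ1 : ∀ a, ∑ b, qq W a b = 1 := qq_sum hW
  have hQs : ∀ b, ∑ a, rho W a * qq W a b = rho W b := qq_stat hW
  set r : X × X → ℝ := rho W with hr
  set Q : X × X → X × X → ℝ := qq W with hQ
  have hS : ∀ e a, 0 < kp (lad W) J e a := fun e a => kp_pos (lad_pos hW) J e a
  have key := logsum (ι := (X × X) × (X × X)) (fun p => r p.1 * kp Q J p.1 p.2)
    (fun p => kp (lad W) J p.1 p.2 ^ 2) (fun p => mul_pos (hr0 _) (kp_pos hQ0 _ _ _))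
    (fun p => pow_pos (hS _ _) 2)
  have t1 : ∑ p : (X × X) × (X × X), r p.1 * kp Q J p.1 p.2 = 1 := by
    rw [Fintype.sum_prod_type]
    simp only [← mul_sum, kp_sum hQ1, mul_one, hr1]
  have s1 : ∑ p : (X × X) × (X × X), kp (lad W) J p.1 p.2 ^ 2 =
      ∑ e : X × X, ∑ a, kp (lad W) J e a ^ 2 := Fintype.sum_prod_type _
  have s2 : ∑ p : (X × X) × (X × X), r p.1 * kp Q J p.1 p.2 *
      (Real.log (r p.1 * kp Q J p.1 p.2) - Real.log (kp (lad W) J p.1 p.2 ^ 2)) =
      ∑ e, ∑ a, r e * kp Q J e a * (Real.log (r e * kp Q J e a) -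
      Real.log (kp (lad W) J e a ^ 2)) := Fintype.sum_prod_type _
  rw [t1, s1, s2, Real.log_one, one_mul, zero_sub] at key
  have t2 : ∑ e, ∑ a, r e * kp Q J e a * (Real.log (r e * kp Q J e a) -
      Real.log (kp (lad W) J e a ^ 2)) = -(2 * ∑ e, ∑ a, r e * kp Q J e a *
      (Real.log (kp (lad W) J e a) - Real.log (kp Q J e a))) - en Q r J +
      ∑ a, r a * Real.log (r a) := by
    have e1 : ∑ a, r a * Real.log (r a) = ∑ e, ∑ a, r e * kp Q J e a * Real.log (r e) := by
      refine sum_congr rfl fun e _ => ?_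
      rw [← sum_mul, ← mul_sum, kp_sum hQ1, mul_one]
    rw [e1]
    unfold en
    rw [mul_sum, ← sum_neg_distrib, ← sum_sub_distrib, ← sum_add_distrib]
    refine sum_congr rfl fun e _ => ?_
    rw [mul_sum, ← sum_neg_distrib, ← sum_sub_distrib, ← sum_add_distrib]
    refine sum_congr rfl fun a _ => ?_
    rw [Real.log_mul (hr0 e).ne' (kp_pos hQ0 _ _ _).ne', Real.log_pow]
    push_cast
    ring
  rw [t2] at key
  have t3 := weight_step (S := lad W) hQ0 (lad_pos hW) hQ1 hQs hr0 J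
  rw [gain_zero hW] at t3
  linarith

/-- ladders with an odd number of rungs (the inequality behind `main_log`) -/
theorem odd_log (hW : ∀ x y, 0 < W x y) (M : ℕ) [NeZero (2 * M + 3)] :
    (2 * (M : ℝ) + 3) * (∑ a, rho W a * Real.log (rr W a)) -
      2 * (en (qq W) (rho W) M - en (qq W) (rho W) (M + 1)) ≤
      Real.log (ladSum W (2 * M + 3)) := by
  have h0 : ∀ x y, 0 ≤ W x y := fun x y => (hW x y).le
  set r : X × X → ℝ := rho W with hr
  set Q : X × X → X × X → ℝ := qq W with hQ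
  have hr0 : ∀ a, 0 < r a := rho_pos hW
  have hr1 : ∑ a, r a = 1 := rho_sum hW
  have hQ0 : ∀ a b, 0 < Q a b := qq_pos hW
  have hQ1 : ∀ a, ∑ b, Q a b = 1 := qq_sum hW
  have hQs : ∀ b, ∑ a, r a * Q a b = r b := qq_stat hW
  set w : ℝ := ∑ a, r a * Real.log (W a.1 a.2) with hw
  set ell : ℝ := ∑ a, r a * Real.log (rr W a) with hell
  set h : ℝ := ∑ a, r a * Real.log (r a) with hh
  set lz : ℝ := Real.log (zc W) with hlz
  have hrel : h = w + ell - lz := by
    have e1 : lz = ∑ a, r a * lz := by rw [← sum_mul, hr1, one_mul]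
    rw [e1, hh, hw, hell, ← sum_add_distrib, ← sum_sub_distrib]
    refine sum_congr rfl fun a _ => ?_
    have e2 : Real.log (r a) = Real.log (W a.1 a.2) + Real.log (rr W a) - lz := by
      simp only [hr]
      unfold rho
      rw [Real.log_div (mul_pos (hW _ _) (rr_pos hW a)).ne' (zc_pos hW).ne',
        Real.log_mul (hW _ _).ne' (rr_pos hW a).ne']
    rw [e2]; ring
  -- averages over the start
  have havg : ∀ (j : ℕ) (F : X × X → ℝ), ∑ e, r e * ∑ a, kp Q j e a * F a = ∑ a, r a * F a := by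
    intro j F
    simp only [mul_sum]
    rw [sum_comm]
    refine sum_congr rfl fun a _ => ?_
    rw [← kp_stat hQs j a, sum_mul]
    exact sum_congr rfl fun e _ => by ring
  set χ : X × X → X × X → ℝ := kp (lad W) M with hχ
  have hχ0 : ∀ e a, 0 < χ e a := fun e a => kp_pos (lad_pos hW) M e a
  set N : X × X → ℝ := fun e => ∑ x, ∑ x', ∑ y, ∑ y',
      Real.sqrt (W x y) * χ e (x, y) * (Real.sqrt (W x' y') * χ e (x', y')) *
        (W x y' * W x' y) with hN
  have htot : ladSum W (2 * M + 3) = ∑ e, N e := lad_total h0 M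
  have hsq : ∀ x y, 0 < Real.sqrt (W x y) := fun x y => Real.sqrt_pos.mpr (hW x y)
  have hN0 : ∀ e, 0 < N e := fun e => sum_pos (fun x _ => sum_pos (fun x' _ => sum_pos
    (fun y _ => sum_pos (fun y' _ => mul_pos (mul_pos (mul_pos (hsq _ _) (hχ0 _ _))
      (mul_pos (hsq _ _) (hχ0 _ _))) (mul_pos (hW _ _) (hW _ _))) univ_nonempty)
      univ_nonempty) univ_nonempty) univ_nonempty
  set B : X × X → ℝ := fun e => ∑ x, ∑ x', half W (fun x y =>
    Real.sqrt (Real.sqrt (W x y) * χ e (x, y)) * Real.sqrt (W x y)) x x' ^ 2 with hB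
  have hB0 : ∀ e, 0 < B e := fun e => sum_pos (fun x _ => sum_pos (fun x' _ => pow_pos
    (sum_pos (fun y _ => mul_pos (mul_pos (Real.sqrt_pos.mpr (mul_pos (hsq _ _) (hχ0 _ _)))
      (hsq _ _)) (hW _ _)) univ_nonempty) 2) univ_nonempty) univ_nonempty
  have hcs : ∀ e, 2 * Real.log (B e) - lz ≤ Real.log (N e) := by
    intro e
    have e1 := local_cs W (fun x y => Real.sqrt (W x y) * χ e (x, y)) h0
      (fun x y => (mul_pos (hsq _ _) (hχ0 _ _)).le)
    have e2 : Real.log (B e ^ 2) ≤ Real.log (zc W * N e) :=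
      Real.log_le_log (pow_pos (hB0 e) 2) e1
    rw [Real.log_pow, Real.log_mul (zc_pos hW).ne' (hN0 e).ne'] at e2
    push_cast at e2
    linarith
  have hlow : ∀ e, (∑ b, kp Q (M + 1) e b * (Real.log (kp Q (M + 1) e b) - Real.log (r b))) -
      lz + ∑ a, kp Q M e a * (Real.log (χ e a) - Real.log (kp Q M e a)) +
      ∑ a, kp Q M e a * (3 / 2 * Real.log (W a.1 a.2) + 2 * Real.log (rr W a) -
        Real.log (kp Q M e a)) ≤ Real.log (B e) := fun e =>
    log_half hW (kp Q M e) (χ e) (fun a => kp_pos hQ0 M e a) (kp_sum hQ1 M e) (hχ0 e)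
  -- Gibbs
  have hgibbs : ∑ e, r e * (Real.log (N e) - Real.log (r e)) ≤ Real.log (∑ e, N e) := by
    have e1 := logsum r N hr0 hN0
    rw [hr1, Real.log_one, one_mul, zero_sub] at e1
    have e2 : ∑ e, r e * (Real.log (r e) - Real.log (N e)) =
        -∑ e, r e * (Real.log (N e) - Real.log (r e)) := by
      rw [← sum_neg_distrib]
      exact sum_congr rfl fun e _ => by ring
    rw [e2] at e1
    linarith
  have hg2 : 2 * (∑ e, r e * Real.log (B e)) - lz - h ≤ Real.log (∑ e, N e) := by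
    refine le_trans (le_of_eq ?_) ((sum_le_sum fun e _ => mul_le_mul_of_nonneg_left
      (sub_le_sub_right (hcs e) (Real.log (r e))) (hr0 e).le).trans hgibbs)
    have e1 : lz = ∑ a, r a * lz := by rw [← sum_mul, hr1, one_mul]
    nth_rewrite 1 [e1]
    rw [hh, mul_sum, ← sum_sub_distrib, ← sum_sub_distrib]
    exact sum_congr rfl fun e _ => by ring
  -- the average of the lower bound
  have hT1 : ∑ e, r e * (∑ b, kp Q (M + 1) e b * (Real.log (kp Q (M + 1) e b) -
      Real.log (r b))) = en Q r (M + 1) - h := by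
    have e1 := havg (M + 1) (fun b => Real.log (r b))
    rw [hh, ← e1]
    unfold en
    rw [← sum_sub_distrib]
    refine sum_congr rfl fun e _ => ?_
    rw [mul_sum, mul_sum, ← sum_sub_distrib]
    exact sum_congr rfl fun b _ => by ring
  have hT2 : ((M : ℝ) + 1) * ell ≤ ∑ e, r e * (∑ a, kp Q M e a * (Real.log (χ e a) -
      Real.log (kp Q M e a))) := by
    have e1 := weight_step (S := lad W) hQ0 (lad_pos hW) hQ1 hQs hr0 M
    rw [gain_zero hW] at e1
    refine e1.trans (le_of_eq ?_)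
    refine sum_congr rfl fun e _ => ?_
    rw [mul_sum]
    exact sum_congr rfl fun b _ => by ring
  have hT3 : ∑ e, r e * (∑ a, kp Q M e a * (3 / 2 * Real.log (W a.1 a.2) +
      2 * Real.log (rr W a) - Real.log (kp Q M e a))) = 3 / 2 * w + 2 * ell - en Q r M := by
    have e1 := havg M (fun a => Real.log (W a.1 a.2))
    have e2 := havg M (fun a => Real.log (rr W a))
    rw [hw, hell, ← e1, ← e2]
    unfold en
    rw [mul_sum, mul_sum, ← sum_add_distrib, ← sum_sub_distrib]
    refine sum_congr rfl fun e _ => ?_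
    rw [mul_sum, mul_sum, mul_sum, mul_sum, mul_sum, ← sum_add_distrib, ← sum_sub_distrib]
    exact sum_congr rfl fun b _ => by ring
  have hBl : (en Q r (M + 1) - h) - lz + ((M : ℝ) + 1) * ell +
      (3 / 2 * w + 2 * ell - en Q r M) ≤ ∑ e, r e * Real.log (B e) := by
    have e1 := sum_le_sum fun e (_ : e ∈ univ) => mul_le_mul_of_nonneg_left (hlow e) (hr0 e).le
    have e2 : lz = ∑ a, r a * lz := by rw [← sum_mul, hr1, one_mul]
    have e3 : ∑ e, r e * ((∑ b, kp Q (M + 1) e b * (Real.log (kp Q (M + 1) e b) -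
        Real.log (r b))) - lz + ∑ a, kp Q M e a * (Real.log (χ e a) - Real.log (kp Q M e a)) +
        ∑ a, kp Q M e a * (3 / 2 * Real.log (W a.1 a.2) + 2 * Real.log (rr W a) -
        Real.log (kp Q M e a))) = (∑ e, r e * (∑ b, kp Q (M + 1) e b *
        (Real.log (kp Q (M + 1) e b) - Real.log (r b)))) - (∑ a, r a * lz) +
        (∑ e, r e * (∑ a, kp Q M e a * (Real.log (χ e a) - Real.log (kp Q M e a)))) +
        ∑ e, r e * (∑ a, kp Q M e a * (3 / 2 * Real.log (W a.1 a.2) +
        2 * Real.log (rr W a) - Real.log (kp Q M e a))) := by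
      rw [← sum_sub_distrib, ← sum_add_distrib, ← sum_add_distrib]
      exact sum_congr rfl fun e _ => by ring
    rw [e3, hT1, hT3, ← e2] at e1
    linarith
  rw [htot]
  set L : ℝ := Real.log (∑ e, N e) with hL
  set E0 : ℝ := en Q r M with hE0
  set E1 : ℝ := en Q r (M + 1) with hE1
  rw [hrel] at hBl hg2
  nlinarith

/-- the entropy of an edge of a random four-cycle -/
theorem ell_ge (hW : ∀ x y, 0 < W x y) : Real.log (zc W) -
    Real.log (∑ a : X × X, W a.1 a.2) ≤ ∑ a, rho W a * Real.log (rr W a) := by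
  have hr0 : ∀ a, 0 < rho W a := rho_pos hW
  have hr1 : ∑ a, rho W a = 1 := rho_sum hW
  set r : X × X → ℝ := rho W with hr
  have e1 := logsum r (fun a : X × X => W a.1 a.2) hr0 (fun a => hW _ _)
  rw [hr1, Real.log_one, one_mul, zero_sub] at e1
  have e2 : ∑ a, r a * (Real.log (r a) - Real.log (W a.1 a.2)) =
      (∑ a, r a * Real.log (rr W a)) - Real.log (zc W) := by
    have e3 : Real.log (zc W) = ∑ a, r a * Real.log (zc W) := by
      rw [← sum_mul, hr1, one_mul]
    rw [e3, ← sum_sub_distrib]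
    refine sum_congr rfl fun a _ => ?_
    have e4 : Real.log (r a) = Real.log (W a.1 a.2) + Real.log (rr W a) -
        Real.log (zc W) := by
      simp only [hr]
      unfold rho
      rw [Real.log_div (mul_pos (hW _ _) (rr_pos hW a)).ne' (zc_pos hW).ne',
        Real.log_mul (hW _ _).ne' (rr_pos hW a).ne']
    rw [e4]; ring
  rw [e2] at e1
  linarith

/-- a ladder with an odd number of rungs and prisms -/
theorem fam_log (hW : ∀ x y, 0 < W x y) (J d : ℕ) [NeZero (2 * (J + d) + 3)]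
    [NeZero (2 * (J + 1))] :
    (((d : ℝ) + 1) * (2 * (J + d) + 3) + 4 * (J + 1)) * (Real.log (zc W) -
      Real.log (∑ a : X × X, W a.1 a.2)) ≤
      ((d : ℝ) + 1) * Real.log (ladSum W (2 * (J + d) + 3)) +
        2 * Real.log (ladSum W (2 * (J + 1))) := by
  have h1 := odd_log hW (J + d)
  have h2 := prism_log hW J
  have h3 := en_tele' (qq_pos hW) (qq_sum hW) (rho_pos hW) (qq_stat hW) J d
  have h4 := en_ge (qq_pos hW) (rho_pos hW) (rho_sum hW) (qq_stat hW) (J + d + 1)
  have h5 := ell_ge hW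
  set ell : ℝ := ∑ a, rho W a * Real.log (rr W a) with hell
  set E0 : ℝ := en (qq W) (rho W) (J + d)
  set E1 : ℝ := en (qq W) (rho W) (J + d + 1)
  set EJ : ℝ := en (qq W) (rho W) J
  set h : ℝ := ∑ a, rho W a * Real.log (rho W a)
  set L1 : ℝ := Real.log (ladSum W (2 * (J + d) + 3))
  set L2 : ℝ := Real.log (ladSum W (2 * (J + 1)))
  have hd : (0 : ℝ) ≤ (d : ℝ) + 1 := by positivity
  have h6 := mul_le_mul_of_nonneg_left h1 hd
  have h7 : (0 : ℝ) ≤ ((d : ℝ) + 1) * (2 * (J + d) + 3) + 4 * (J + 1) := by positivity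
  have h8 := mul_le_mul_of_nonneg_left h5 h7
  push_cast at h6
  nlinarith

/-- a ladder with an odd number of rungs and one prism -/
theorem pair_log (hW : ∀ x y, 0 < W x y) (J d : ℕ) [NeZero (2 * (J + (d + 1)) + 3)]
    [NeZero (2 * (J + 1))] :
    ((2 * ((J : ℝ) + (d + 1)) + 3) + 2 * (J + 1)) * (Real.log (zc W) -
      Real.log (∑ a : X × X, W a.1 a.2)) ≤
      Real.log (ladSum W (2 * (J + (d + 1)) + 3)) +
        Real.log (ladSum W (2 * (J + 1))) := by
  have h1 := odd_log hW (J + (d + 1))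
  have h2 := prism_log hW J
  have h3 := en_tele' (qq_pos hW) (qq_sum hW) (rho_pos hW) (qq_stat hW) J (d + 1)
  have h4 := en_ge (qq_pos hW) (rho_pos hW) (rho_sum hW) (qq_stat hW) (J + (d + 1) + 1)
  have h9 := en_ge (qq_pos hW) (rho_pos hW) (rho_sum hW) (qq_stat hW) J
  have h5 := ell_ge hW
  set ell : ℝ := ∑ a, rho W a * Real.log (rr W a) with hell
  set E0 : ℝ := en (qq W) (rho W) (J + (d + 1))
  set E1 : ℝ := en (qq W) (rho W) (J + (d + 1) + 1)
  set EJ : ℝ := en (qq W) (rho W) J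
  set h : ℝ := ∑ a, rho W a * Real.log (rho W a)
  set L1 : ℝ := Real.log (ladSum W (2 * (J + (d + 1)) + 3))
  set L2 : ℝ := Real.log (ladSum W (2 * (J + 1)))
  have hg : 2 * (E0 - E1) ≤ EJ - h := by
    by_cases hE : 0 ≤ E0 - E1
    · have : 2 * (E0 - E1) ≤ (((d + 1 : ℕ) : ℝ) + 1) * (E0 - E1) := by
        refine mul_le_mul_of_nonneg_right ?_ hE
        push_cast
        have : (0 : ℝ) ≤ d := Nat.cast_nonneg d
        linarith
      linarith
    · push Not at hE
      linarith
  have h7 : (0 : ℝ) ≤ (2 * ((J : ℝ) + (d + 1)) + 3) + 2 * (J + 1) := by positivity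
  have h8 := mul_le_mul_of_nonneg_left h5 h7
  push_cast at h1
  nlinarith

end global_

end Vale.Agent.P050.H173
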