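import Vale.Agent.P050.Deg.Few
import Vale.Agent.P050.H177.Gauge13

/-!
Complete bipartite graphs.
-/

namespace Vale.Agent.P050.H173

open Finset Vale.Agent.P050 Vale.Agent.P050.Lev

/-- The complete bipartite graph with the 2-colouring `t`. -/
def fullBip {V : Type} (t : V → Bool) : SimpleGraph V where
  Adj u v := t u ≠ t v
  symm := ⟨fun _ _ h => h.symm⟩
  loopless := ⟨fun _ h => h rfl⟩

variable {V : Type} [Fintype V] [DecidableEq V] {t : V → Bool}

theorem fullBip_gsid {q : V} (hq : t q = true) : GSid (fullBip t) t :=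
  Vale.Agent.P050.Deg.dom_gsid (fun _ _ h => h) hq fun a ha => by
    show t q ≠ t a
    rw [hq, ha]
    decide

theorem fullBip_edges : Nat.card (fullBip t).edgeSet =
    Nat.card {v // t v = false} * Nat.card {v // t v = true} := by
  classical
  rw [← card_sideEdges (fullBip t) t fun _ _ h => h, Nat.card_eq_fintype_card,
    Nat.card_eq_fintype_card, Fintype.card_subtype, Fintype.card_subtype, ← Finset.card_product]
  congr 1
  ext p
  unfold sideEdges
  rw [Finset.mem_filter, Finset.mem_product, Finset.mem_filter, Finset.mem_filter]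
  constructor
  · rintro ⟨_, _, h2, h3⟩
    exact ⟨⟨mem_univ _, h2⟩, mem_univ _, h3⟩
  · rintro ⟨⟨_, h1⟩, _, h2⟩
    refine ⟨mem_univ _, ?_, h1, h2⟩
    show t p.1 ≠ t p.2
    rw [h1, h2]
    decide

omit [Fintype V] [DecidableEq V] in
theorem fullBip_iso {q₀ q₁ : V} (h₀ : t q₀ = false) (h₁ : t q₁ = true) (v : V) :
    ∃ w, (fullBip t).Adj v w := by
  cases h : t v
  · refine ⟨q₁, ?_⟩
    show t v ≠ t q₁
    rw [h, h₁]
    decide
  · refine ⟨q₀, ?_⟩
    show t v ≠ t q₀
    rw [h, h₀]
    decide

theorem fullBip_lt (h : ∀ b, 2 ≤ Nat.card {v // t v = b}) (b : Bool) :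
    Nat.card {v // t v = b} < Nat.card (fullBip t).edgeSet := by
  rw [fullBip_edges]
  have h0 := h false
  have h1 := h true
  cases b
  · nlinarith
  · nlinarith

end Vale.Agent.P050.H173
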