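import Vale.Agent.P050.H180.Ent3

set_option linter.all false

/-!
Ladders with an odd number of rungs, one rung being doubled: the logarithmic inequality.
-/

namespace Vale.Agent.P050.H173

open Finset Vale.Agent.P050.H148 Vale.Agent.P050.H180

section chain

variable {V : Type*} [Fintype V] [Nonempty V] {Q : V → V → ℝ} {r : V → ℝ}

theorem en_tele1 (hQ : ∀ a b, 0 < Q a b) (h1 : ∀ a, ∑ b, Q a b = 1) (hr : ∀ a, 0 < r a)
    (hs : ∀ b, ∑ a, r a * Q a b = r b) (J d : ℕ) :
    ((d : ℝ) + 1) * (en Q r (J + d) - en Q r (J + d + 1)) ≤ en Q r J - en Q r (J + d + 1) := by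
  induction d with
  | zero => simp
  | succ d ih =>
    have e1 := en_conv hQ h1 hr hs (J + d)
    have e2 : ((d : ℝ) + 1) * (en Q r (J + d + 1) - en Q r (J + d + 2)) ≤
        ((d : ℝ) + 1) * (en Q r (J + d) - en Q r (J + d + 1)) :=
      mul_le_mul_of_nonneg_left e1 (by positivity)
    have e3 : J + (d + 1) = J + d + 1 := rfl
    rw [e3]
    push_cast
    linarith

/-- `kp (j + i + 1)` is the product of `kp j` and `kp i` -/
theorem kp_add (Q : V → V → ℝ) (j i : ℕ) (a b : V) :
    kp Q (j + i + 1) a b = ∑ c, kp Q j a c * kp Q i c b := by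
  induction i generalizing b with
  | zero => rfl
  | succ i ih =>
    change ∑ c, kp Q (j + i + 1) a c * Q c b = ∑ c, kp Q j a c * kp Q (i + 1) c b
    calc ∑ c, kp Q (j + i + 1) a c * Q c b = ∑ c, ∑ d, kp Q j a d * kp Q i d c * Q c b := by
          refine sum_congr rfl fun c _ => ?_
          rw [ih, sum_mul]
      _ = ∑ d, ∑ c, kp Q j a d * kp Q i d c * Q c b := sum_comm
      _ = ∑ d, kp Q j a d * kp Q (i + 1) d b := by
          refine sum_congr rfl fun d _ => ?_
          change _ = kp Q j a d * ∑ c, kp Q i d c * Q c b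
          rw [mul_sum]
          exact sum_congr rfl fun c _ => by ring

/-- products of two kernels, compared with the chain -/
theorem prod_step {S T : V → V → ℝ} (hQ : ∀ a b, 0 < Q a b) (hS : ∀ a b, 0 < S a b)
    (hT : ∀ a b, 0 < T a b) (h1 : ∀ a, ∑ b, Q a b = 1) (hs : ∀ b, ∑ a, r a * Q a b = r b)
    (hr : ∀ a, 0 < r a) (j i : ℕ) :
    (∑ a, ∑ b, r a * kp Q j a b * (Real.log (S a b) - Real.log (kp Q j a b))) +
      (∑ a, ∑ b, r a * kp Q i a b * (Real.log (T a b) - Real.log (kp Q i a b))) ≤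
      ∑ a, ∑ b, r a * kp Q (j + i + 1) a b * (Real.log (∑ c, S a c * T c b) -
        Real.log (kp Q (j + i + 1) a b)) := by
  have e1 : ∀ a b, ∑ g, kp Q j a g * kp Q i g b * ((Real.log (S a g) - Real.log (kp Q j a g)) +
      (Real.log (T g b) - Real.log (kp Q i g b))) ≤
      kp Q (j + i + 1) a b * (Real.log (∑ c, S a c * T c b) -
        Real.log (kp Q (j + i + 1) a b)) := by
    intro a b
    have e2 := logsum (fun g => kp Q j a g * kp Q i g b) (fun g => S a g * T g b)
      (fun g => mul_pos (kp_pos hQ j a g) (kp_pos hQ i g b))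
      (fun g => mul_pos (hS a g) (hT g b))
    have e3 : ∑ g, kp Q j a g * kp Q i g b * (Real.log (kp Q j a g * kp Q i g b) -
        Real.log (S a g * T g b)) = -∑ g, kp Q j a g * kp Q i g b *
        ((Real.log (S a g) - Real.log (kp Q j a g)) +
        (Real.log (T g b) - Real.log (kp Q i g b))) := by
      rw [← sum_neg_distrib]
      refine sum_congr rfl fun g _ => ?_
      rw [Real.log_mul (kp_pos hQ j a g).ne' (kp_pos hQ i g b).ne',
        Real.log_mul (hS a g).ne' (hT g b).ne']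
      ring
    rw [e3, ← kp_add] at e2
    linarith
  have e6 : ∑ a, ∑ b, r a * ∑ g, kp Q j a g * kp Q i g b * ((Real.log (S a g) -
      Real.log (kp Q j a g)) + (Real.log (T g b) - Real.log (kp Q i g b))) =
      (∑ a, ∑ b, r a * kp Q j a b * (Real.log (S a b) - Real.log (kp Q j a b))) +
      ∑ a, ∑ b, r a * kp Q i a b * (Real.log (T a b) - Real.log (kp Q i a b)) := by
    have e7 : ∀ a, ∑ b, r a * ∑ g, kp Q j a g * kp Q i g b * ((Real.log (S a g) -
        Real.log (kp Q j a g)) + (Real.log (T g b) - Real.log (kp Q i g b))) =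
        ∑ g, (r a * kp Q j a g * (Real.log (S a g) - Real.log (kp Q j a g)) +
          r a * kp Q j a g * ∑ b, kp Q i g b * (Real.log (T g b) -
            Real.log (kp Q i g b))) := by
      intro a
      simp only [mul_sum]
      rw [sum_comm]
      refine sum_congr rfl fun g _ => ?_
      have e8 : ∀ b, r a * (kp Q j a g * kp Q i g b * ((Real.log (S a g) -
          Real.log (kp Q j a g)) + (Real.log (T g b) - Real.log (kp Q i g b)))) =
          r a * kp Q j a g * (Real.log (S a g) - Real.log (kp Q j a g)) * kp Q i g b +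
          r a * kp Q j a g * (kp Q i g b * (Real.log (T g b) - Real.log (kp Q i g b))) := by
        intro b; ring
      simp only [e8, sum_add_distrib]
      rw [← mul_sum, kp_sum h1, mul_one]
    simp only [e7, sum_add_distrib]
    congr 1
    rw [sum_comm]
    refine sum_congr rfl fun g _ => ?_
    rw [← sum_mul, kp_stat hs, mul_sum]
    exact sum_congr rfl fun b _ => by ring
  have e9 := sum_le_sum fun a (_ : a ∈ univ) => sum_le_sum fun b (_ : b ∈ univ) =>
    mul_le_mul_of_nonneg_left (e1 a b) (hr a).le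
  rw [e6] at e9
  refine e9.trans (le_of_eq ?_)
  exact sum_congr rfl fun a _ => sum_congr rfl fun b _ => by ring

end chain

section global_

variable {X : Type*} [Fintype X] [DecidableEq X] [Nonempty X] {W : X → X → ℝ}

/-- the closing inequality for an arbitrary family of positive functions -/
theorem closing (hW : ∀ x y, 0 < W x y) (M : ℕ) (χ : X × X → X × X → ℝ)
    (hχ0 : ∀ e a, 0 < χ e a) {A : ℝ}
    (hA : A ≤ ∑ e, ∑ a, rho W e * kp (qq W) M e a *
      (Real.log (χ e a) - Real.log (kp (qq W) M e a))) :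
    2 * A + (∑ a, rho W a * Real.log (rr W a)) -
      2 * (en (qq W) (rho W) M - en (qq W) (rho W) (M + 1)) ≤
      Real.log (∑ e, ∑ a, ∑ b, χ e a * lad W a b * χ e b) := by
  have h0 : ∀ x y, 0 ≤ W x y := fun x y => (hW x y).le
  set r : X × X → ℝ := rho W with hr
  set Q : X × X → X × X → ℝ := qq W with hQ
  have hr0 : ∀ a, 0 < r a := rho_pos hW
  have hr1 : ∑ a, r a = 1 := rho_sum hW
  have hQ0 : ∀ a b, 0 < Q a b := qq_pos hW
  have hQ1 : ∀ a, ∑ b, Q a b = 1 := qq_sum hW
  have hQs : ∀ b, ∑ a, r a * Q a b = r b := qq_stat hW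
  set w : ℝ := ∑ a, r a * Real.log (W a.1 a.2) with hw
  set ell : ℝ := ∑ a, r a * Real.log (rr W a) with hell
  set h : ℝ := ∑ a, r a * Real.log (r a) with hh
  set lz : ℝ := Real.log (zc W) with hlz
  have hrel : h = w + ell - lz := by
    have e1 : lz = ∑ a, r a * lz := by rw [← sum_mul, hr1, one_mul]
    rw [e1, hh, hw, hell, ← sum_add_distrib, ← sum_sub_distrib]
    refine sum_congr rfl fun a _ => ?_
    have e2 : Real.log (r a) = Real.log (W a.1 a.2) + Real.log (rr W a) - lz := by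
      simp only [hr]
      unfold rho
      rw [Real.log_div (mul_pos (hW _ _) (rr_pos hW a)).ne' (zc_pos hW).ne',
        Real.log_mul (hW _ _).ne' (rr_pos hW a).ne']
    rw [e2]; ring
  -- averages over the start
  have havg : ∀ (j : ℕ) (F : X × X → ℝ), ∑ e, r e * ∑ a, kp Q j e a * F a = ∑ a, r a * F a := by
    intro j F
    simp only [mul_sum]
    rw [sum_comm]
    refine sum_congr rfl fun a _ => ?_
    rw [← kp_stat hQs j a, sum_mul]
    exact sum_congr rfl fun e _ => by ring
  set N : X × X → ℝ := fun e => ∑ x, ∑ x', ∑ y, ∑ y',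
      Real.sqrt (W x y) * χ e (x, y) * (Real.sqrt (W x' y') * χ e (x', y')) *
        (W x y' * W x' y) with hN
  have htot : ∑ e, ∑ a, ∑ b, χ e a * lad W a b * χ e b = ∑ e, N e := by
    refine sum_congr rfl fun e _ => ?_
    rw [prod4]
    refine sum_congr rfl fun x _ => sum_congr rfl fun x' _ => sum_congr rfl fun y _ =>
      sum_congr rfl fun y' _ => ?_
    unfold lad; ring
  have hsq : ∀ x y, 0 < Real.sqrt (W x y) := fun x y => Real.sqrt_pos.mpr (hW x y)
  have hN0 : ∀ e, 0 < N e := fun e => sum_pos (fun x _ => sum_pos (fun x' _ => sum_pos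
    (fun y _ => sum_pos (fun y' _ => mul_pos (mul_pos (mul_pos (hsq _ _) (hχ0 _ _))
      (mul_pos (hsq _ _) (hχ0 _ _))) (mul_pos (hW _ _) (hW _ _))) univ_nonempty)
      univ_nonempty) univ_nonempty) univ_nonempty
  set B : X × X → ℝ := fun e => ∑ x, ∑ x', half W (fun x y =>
    Real.sqrt (Real.sqrt (W x y) * χ e (x, y)) * Real.sqrt (W x y)) x x' ^ 2 with hB
  have hB0 : ∀ e, 0 < B e := fun e => sum_pos (fun x _ => sum_pos (fun x' _ => pow_pos
    (sum_pos (fun y _ => mul_pos (mul_pos (Real.sqrt_pos.mpr (mul_pos (hsq _ _) (hχ0 _ _)))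
      (hsq _ _)) (hW _ _)) univ_nonempty) 2) univ_nonempty) univ_nonempty
  have hcs : ∀ e, 2 * Real.log (B e) - lz ≤ Real.log (N e) := by
    intro e
    have e1 := local_cs W (fun x y => Real.sqrt (W x y) * χ e (x, y)) h0
      (fun x y => (mul_pos (hsq _ _) (hχ0 _ _)).le)
    have e2 : Real.log (B e ^ 2) ≤ Real.log (zc W * N e) :=
      Real.log_le_log (pow_pos (hB0 e) 2) e1
    rw [Real.log_pow, Real.log_mul (zc_pos hW).ne' (hN0 e).ne'] at e2
    push_cast at e2
    linarith
  have hlow : ∀ e, (∑ b, kp Q (M + 1) e b * (Real.log (kp Q (M + 1) e b) - Real.log (r b))) -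
      lz + ∑ a, kp Q M e a * (Real.log (χ e a) - Real.log (kp Q M e a)) +
      ∑ a, kp Q M e a * (3 / 2 * Real.log (W a.1 a.2) + 2 * Real.log (rr W a) -
        Real.log (kp Q M e a)) ≤ Real.log (B e) := fun e =>
    log_half hW (kp Q M e) (χ e) (fun a => kp_pos hQ0 M e a) (kp_sum hQ1 M e) (hχ0 e)
  -- Gibbs
  have hgibbs : ∑ e, r e * (Real.log (N e) - Real.log (r e)) ≤ Real.log (∑ e, N e) := by
    have e1 := logsum r N hr0 hN0
    rw [hr1, Real.log_one, one_mul, zero_sub] at e1
    have e2 : ∑ e, r e * (Real.log (r e) - Real.log (N e)) =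
        -∑ e, r e * (Real.log (N e) - Real.log (r e)) := by
      rw [← sum_neg_distrib]
      exact sum_congr rfl fun e _ => by ring
    rw [e2] at e1
    linarith
  have hg2 : 2 * (∑ e, r e * Real.log (B e)) - lz - h ≤ Real.log (∑ e, N e) := by
    refine le_trans (le_of_eq ?_) ((sum_le_sum fun e _ => mul_le_mul_of_nonneg_left
      (sub_le_sub_right (hcs e) (Real.log (r e))) (hr0 e).le).trans hgibbs)
    have e1 : lz = ∑ a, r a * lz := by rw [← sum_mul, hr1, one_mul]
    nth_rewrite 1 [e1]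
    rw [hh, mul_sum, ← sum_sub_distrib, ← sum_sub_distrib]
    exact sum_congr rfl fun e _ => by ring
  -- the average of the lower bound
  have hT1 : ∑ e, r e * (∑ b, kp Q (M + 1) e b * (Real.log (kp Q (M + 1) e b) -
      Real.log (r b))) = en Q r (M + 1) - h := by
    have e1 := havg (M + 1) (fun b => Real.log (r b))
    rw [hh, ← e1]
    unfold en
    rw [← sum_sub_distrib]
    refine sum_congr rfl fun e _ => ?_
    rw [mul_sum, mul_sum, ← sum_sub_distrib]
    exact sum_congr rfl fun b _ => by ring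
  have hT2 : A ≤ ∑ e, r e * (∑ a, kp Q M e a * (Real.log (χ e a) -
      Real.log (kp Q M e a))) := by
    refine hA.trans (le_of_eq ?_)
    refine sum_congr rfl fun e _ => ?_
    rw [mul_sum]
    exact sum_congr rfl fun b _ => by ring
  have hT3 : ∑ e, r e * (∑ a, kp Q M e a * (3 / 2 * Real.log (W a.1 a.2) +
      2 * Real.log (rr W a) - Real.log (kp Q M e a))) = 3 / 2 * w + 2 * ell - en Q r M := by
    have e1 := havg M (fun a => Real.log (W a.1 a.2))
    have e2 := havg M (fun a => Real.log (rr W a))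
    rw [hw, hell, ← e1, ← e2]
    unfold en
    rw [mul_sum, mul_sum, ← sum_add_distrib, ← sum_sub_distrib]
    refine sum_congr rfl fun e _ => ?_
    rw [mul_sum, mul_sum, mul_sum, mul_sum, mul_sum, ← sum_add_distrib, ← sum_sub_distrib]
    exact sum_congr rfl fun b _ => by ring
  have hBl : (en Q r (M + 1) - h) - lz + A +
      (3 / 2 * w + 2 * ell - en Q r M) ≤ ∑ e, r e * Real.log (B e) := by
    have e1 := sum_le_sum fun e (_ : e ∈ univ) => mul_le_mul_of_nonneg_left (hlow e) (hr0 e).le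
    have e2 : lz = ∑ a, r a * lz := by rw [← sum_mul, hr1, one_mul]
    have e3 : ∑ e, r e * ((∑ b, kp Q (M + 1) e b * (Real.log (kp Q (M + 1) e b) -
        Real.log (r b))) - lz + ∑ a, kp Q M e a * (Real.log (χ e a) - Real.log (kp Q M e a)) +
        ∑ a, kp Q M e a * (3 / 2 * Real.log (W a.1 a.2) + 2 * Real.log (rr W a) -
        Real.log (kp Q M e a))) = (∑ e, r e * (∑ b, kp Q (M + 1) e b *
        (Real.log (kp Q (M + 1) e b) - Real.log (r b)))) - (∑ a, r a * lz) +
        (∑ e, r e * (∑ a, kp Q M e a * (Real.log (χ e a) - Real.log (kp Q M e a)))) +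
        ∑ e, r e * (∑ a, kp Q M e a * (3 / 2 * Real.log (W a.1 a.2) +
        2 * Real.log (rr W a) - Real.log (kp Q M e a))) := by
      rw [← sum_sub_distrib, ← sum_add_distrib, ← sum_add_distrib]
      exact sum_congr rfl fun e _ => by ring
    rw [e3, hT1, hT3, ← e2] at e1
    linarith
  rw [htot]
  set L : ℝ := Real.log (∑ e, N e) with hL
  set E0 : ℝ := en Q r M with hE0
  set E1 : ℝ := en Q r (M + 1) with hE1
  rw [hrel] at hBl hg2
  nlinarith

/-- the entropy of an edge of a random four-cycle -/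
theorem ell_ge (hW : ∀ x y, 0 < W x y) : Real.log (zc W) -
    Real.log (∑ a : X × X, W a.1 a.2) ≤ ∑ a, rho W a * Real.log (rr W a) := by
  have hr0 : ∀ a, 0 < rho W a := rho_pos hW
  have hr1 : ∑ a, rho W a = 1 := rho_sum hW
  set r : X × X → ℝ := rho W with hr
  have e1 := logsum r (fun a : X × X => W a.1 a.2) hr0 (fun a => hW _ _)
  rw [hr1, Real.log_one, one_mul, zero_sub] at e1
  have e2 : ∑ a, r a * (Real.log (r a) - Real.log (W a.1 a.2)) =
      (∑ a, r a * Real.log (rr W a)) - Real.log (zc W) := by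
    have e3 : Real.log (zc W) = ∑ a, r a * Real.log (zc W) := by
      rw [← sum_mul, hr1, one_mul]
    rw [e3, ← sum_sub_distrib]
    refine sum_congr rfl fun a _ => ?_
    have e4 : Real.log (r a) = Real.log (W a.1 a.2) + Real.log (rr W a) -
        Real.log (zc W) := by
      simp only [hr]
      unfold rho
      rw [Real.log_div (mul_pos (hW _ _) (rr_pos hW a)).ne' (zc_pos hW).ne',
        Real.log_mul (hW _ _).ne' (rr_pos hW a).ne']
    rw [e4]; ring
  rw [e2] at e1
  linarith


theorem kp_symm {V : Type*} [Fintype V] [Nonempty V] {S : V → V → ℝ} (hS : ∀ a b, S a b = S b a) (j : ℕ)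
    (a b : V) : kp S j a b = kp S j b a := by
  induction j generalizing a b with
  | zero => exact hS a b
  | succ j ih =>
    rw [kp_left S j b a]
    change ∑ c, kp S j a c * S c b = _
    exact sum_congr rfl fun c _ => by rw [ih a c, hS c b, mul_comm]

/-- the pairs of paths of length two between two rungs -/
noncomputable def dbl (W : X → X → ℝ) (e w : X × X) : ℝ :=
  kp (lad W) 1 e w ^ 2 / (Real.sqrt (W e.1 e.2) * Real.sqrt (W w.1 w.2))

theorem dbl_pos (hW : ∀ x y, 0 < W x y) (e w : X × X) : 0 < dbl W e w :=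
  div_pos (pow_pos (kp_pos (lad_pos hW) 1 e w) 2)
    (mul_pos (Real.sqrt_pos.mpr (hW _ _)) (Real.sqrt_pos.mpr (hW _ _)))

/-- the mean of the logarithm of the geometric mean of one and of two paths -/
theorem geo_log (hW : ∀ x y, 0 < W x y) :
    3 * (∑ a, rho W a * Real.log (rr W a)) + 1 / 2 * en (qq W) (rho W) 1 -
      1 / 2 * (∑ a, rho W a * Real.log (W a.1 a.2)) ≤
    ∑ a, ∑ b, rho W a * kp (qq W) 1 a b *
      (Real.log (Real.sqrt (dbl W a b * kp (lad W) 1 a b)) - Real.log (kp (qq W) 1 a b)) := by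
  have hr0 : ∀ a, 0 < rho W a := rho_pos hW
  have hQ0 : ∀ a b, 0 < qq W a b := qq_pos hW
  have hQ1 : ∀ a, ∑ b, qq W a b = 1 := qq_sum hW
  have hQs : ∀ b, ∑ a, rho W a * qq W a b = rho W b := qq_stat hW
  set r : X × X → ℝ := rho W with hr
  set Q : X × X → X × X → ℝ := qq W with hQ
  have t3 := weight_step (S := lad W) hQ0 (lad_pos hW) hQ1 hQs hr0 1
  rw [gain_zero hW] at t3
  have h1 : ∑ a, ∑ b, r a * kp Q 1 a b * Real.log (W a.1 a.2) =
      ∑ a, r a * Real.log (W a.1 a.2) := by
    refine sum_congr rfl fun a _ => ?_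
    rw [← sum_mul, ← mul_sum, kp_sum hQ1, mul_one]
  have h2 : ∑ a, ∑ b, r a * kp Q 1 a b * Real.log (W b.1 b.2) =
      ∑ a, r a * Real.log (W a.1 a.2) := by
    rw [sum_comm]
    refine sum_congr rfl fun b _ => ?_
    rw [← sum_mul, kp_stat hQs]
  have h3 : ∑ a, ∑ b, r a * kp Q 1 a b *
      (Real.log (Real.sqrt (dbl W a b * kp (lad W) 1 a b)) - Real.log (kp Q 1 a b)) =
      3 / 2 * (∑ a, ∑ b, r a * kp Q 1 a b * (Real.log (kp (lad W) 1 a b) -
        Real.log (kp Q 1 a b))) + 1 / 2 * en Q r 1 -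
      1 / 4 * (∑ a, ∑ b, r a * kp Q 1 a b * Real.log (W a.1 a.2)) -
      1 / 4 * (∑ a, ∑ b, r a * kp Q 1 a b * Real.log (W b.1 b.2)) := by
    unfold en
    rw [mul_sum, mul_sum, mul_sum, mul_sum, ← sum_add_distrib, ← sum_sub_distrib,
      ← sum_sub_distrib]
    refine sum_congr rfl fun a _ => ?_
    rw [mul_sum, mul_sum, mul_sum, mul_sum, ← sum_add_distrib, ← sum_sub_distrib,
      ← sum_sub_distrib]
    refine sum_congr rfl fun b _ => ?_
    have hk := kp_pos (lad_pos hW) 1 a b
    have s1 := Real.sqrt_pos.mpr (hW a.1 a.2)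
    have s2 := Real.sqrt_pos.mpr (hW b.1 b.2)
    rw [Real.log_sqrt (mul_pos (dbl_pos hW a b) hk).le, Real.log_mul (dbl_pos hW a b).ne' hk.ne']
    unfold dbl
    rw [Real.log_div (pow_pos hk 2).ne' (mul_pos s1 s2).ne', Real.log_mul s1.ne' s2.ne',
      Real.log_pow, Real.log_sqrt (hW _ _).le, Real.log_sqrt (hW _ _).le]
    push_cast
    ring
  rw [h3, h1, h2]
  push_cast at t3
  linarith

/-- **One doubled rung: the logarithmic inequality.** -/
theorem one_log (hW : ∀ x y, 0 < W x y) (i : ℕ) :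
    (2 * (i : ℝ) + 9) * Real.log (zc W) - (2 * (i : ℝ) + 10) *
      Real.log (∑ a : X × X, W a.1 a.2) ≤
      Real.log (∑ e, ∑ w, dbl W e w * kp (lad W) (2 * i + 4) w e) := by
  have hl0 : ∀ a b, 0 < lad W a b := lad_pos hW
  have hls : ∀ a b, lad W a b = lad W b a := fun a b => lad_symm W a b
  have hT0 : ∀ a b, 0 < kp (lad W) i a b := kp_pos hl0 i
  have hS0 : ∀ a b, 0 < kp (lad W) 1 a b := kp_pos hl0 1
  have hr0 : ∀ a, 0 < rho W a := rho_pos hW
  have hQ0 : ∀ a b, 0 < qq W a b := qq_pos hW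
  have hQ1 : ∀ a, ∑ b, qq W a b = 1 := qq_sum hW
  have hQs : ∀ b, ∑ a, rho W a * qq W a b = rho W b := qq_stat hW
  set G2 : X × X → X × X → ℝ := fun e w => Real.sqrt (dbl W e w * kp (lad W) 1 e w) with hG2
  have hG20 : ∀ e w, 0 < G2 e w := fun e w =>
    Real.sqrt_pos.mpr (mul_pos (dbl_pos hW e w) (hS0 e w))
  set G : X × X → X × X → ℝ := fun e a => ∑ w, G2 e w * kp (lad W) i w a with hG
  have hG0 : ∀ e a, 0 < G e a := fun e a =>
    sum_pos (fun w _ => mul_pos (hG20 e w) (hT0 w a)) univ_nonempty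
  set F1 : X × X → X × X → ℝ := fun e a => ∑ w, dbl W e w * kp (lad W) i w a with hF1
  have hF10 : ∀ e a, 0 < F1 e a := fun e a =>
    sum_pos (fun w _ => mul_pos (dbl_pos hW e w) (hT0 w a)) univ_nonempty
  set F2 : X × X → X × X → ℝ := kp (lad W) (1 + i + 1) with hF2
  have hF20 : ∀ e a, 0 < F2 e a := kp_pos hl0 _
  -- Cauchy-Schwarz
  have hGF : ∀ e a, G e a ≤ Real.sqrt (F1 e a) * Real.sqrt (F2 e a) := by
    intro e a
    have e1 : F2 e a = ∑ w, kp (lad W) 1 e w * kp (lad W) i w a := kp_add _ 1 i e a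
    rw [e1]
    refine le_trans (le_of_eq ?_) (Real.sum_sqrt_mul_sqrt_le univ
      (f := fun w => dbl W e w * kp (lad W) i w a) (g := fun w => kp (lad W) 1 e w *
        kp (lad W) i w a) (fun w => (mul_pos (dbl_pos hW e w) (hT0 w a)).le)
      (fun w => (mul_pos (hS0 e w) (hT0 w a)).le))
    refine sum_congr rfl fun w _ => ?_
    simp only [hG2]
    rw [← Real.sqrt_mul (mul_pos (dbl_pos hW e w) (hT0 w a)).le]
    have e2 : dbl W e w * kp (lad W) i w a * (kp (lad W) 1 e w * kp (lad W) i w a) =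
        dbl W e w * kp (lad W) 1 e w * kp (lad W) i w a ^ 2 := by ring
    rw [e2, Real.sqrt_mul (mul_pos (dbl_pos hW e w) (hS0 e w)).le,
      Real.sqrt_sq (hT0 w a).le]
  have hAM : ∀ e, ∑ a, ∑ b, G e a * lad W a b * G e b ≤
      ∑ a, ∑ b, F1 e a * lad W a b * F2 e b := by
    intro e
    have e1 : ∑ a, ∑ b, F1 e a * lad W a b * F2 e b =
        ∑ a, ∑ b, 1 / 2 * (F1 e a * F2 e b + F2 e a * F1 e b) * lad W a b := by
      have e2 : ∑ a, ∑ b, F2 e a * F1 e b * lad W a b =
          ∑ a, ∑ b, F1 e a * lad W a b * F2 e b := by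
        rw [sum_comm]
        exact sum_congr rfl fun a _ => sum_congr rfl fun b _ => by rw [hls b a]; ring
      have e3 : ∀ a b, 1 / 2 * (F1 e a * F2 e b + F2 e a * F1 e b) * lad W a b =
          1 / 2 * (F1 e a * lad W a b * F2 e b) + 1 / 2 * (F2 e a * F1 e b * lad W a b) := by
        intro a b; ring
      simp only [e3, sum_add_distrib, ← mul_sum]
      rw [e2]; ring
    rw [e1]
    refine sum_le_sum fun a _ => sum_le_sum fun b _ => ?_
    have h1 := mul_le_mul (hGF e a) (hGF e b) (hG0 e b).le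
      (mul_nonneg (Real.sqrt_nonneg _) (Real.sqrt_nonneg _))
    have q1 := Real.mul_self_sqrt (hF10 e a).le
    have q2 := Real.mul_self_sqrt (hF20 e a).le
    have q3 := Real.mul_self_sqrt (hF10 e b).le
    have q4 := Real.mul_self_sqrt (hF20 e b).le
    set x1 := Real.sqrt (F1 e a)
    set x2 := Real.sqrt (F2 e a)
    set x3 := Real.sqrt (F1 e b)
    set x4 := Real.sqrt (F2 e b)
    have h2 : x1 * x2 * (x3 * x4) ≤ 1 / 2 * (F1 e a * F2 e b + F2 e a * F1 e b) := by
      rw [← q1, ← q2, ← q3, ← q4]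
      nlinarith [sq_nonneg (x1 * x4 - x2 * x3)]
    calc G e a * lad W a b * G e b = G e a * G e b * lad W a b := by ring
      _ ≤ _ := mul_le_mul_of_nonneg_right (h1.trans h2) (hl0 a b).le
  -- the closed walk
  have htot : ∑ e, ∑ a, ∑ b, F1 e a * lad W a b * F2 e b =
      ∑ e, ∑ w, dbl W e w * kp (lad W) (2 * i + 4) w e := by
    refine sum_congr rfl fun e _ => ?_
    have e1 : ∀ w, kp (lad W) (2 * i + 4) w e =
        ∑ a, ∑ b, kp (lad W) i w a * lad W a b * F2 e b := by
      intro w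
      have e2 : 2 * i + 4 = i + (i + 3) + 1 := by ring
      rw [e2, kp_add]
      refine sum_congr rfl fun a _ => ?_
      have e3 : i + 3 = (i + 2) + 1 := rfl
      rw [e3, kp_left, mul_sum]
      refine sum_congr rfl fun b _ => ?_
      have e4 : F2 e b = kp (lad W) (i + 2) b e := by
        simp only [hF2]
        rw [kp_symm hls, show 1 + i + 1 = i + 2 by ring]
      rw [e4]; ring
    simp only [e1, hF1]
    calc ∑ a, ∑ b, (∑ w, dbl W e w * kp (lad W) i w a) * lad W a b * F2 e b
        = ∑ a, ∑ b, ∑ w, dbl W e w * (kp (lad W) i w a * lad W a b * F2 e b) := by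
          refine sum_congr rfl fun a _ => sum_congr rfl fun b _ => ?_
          rw [sum_mul, sum_mul]
          exact sum_congr rfl fun w _ => by ring
      _ = ∑ a, ∑ w, ∑ b, dbl W e w * (kp (lad W) i w a * lad W a b * F2 e b) :=
          sum_congr rfl fun a _ => sum_comm
      _ = ∑ w, ∑ a, ∑ b, dbl W e w * (kp (lad W) i w a * lad W a b * F2 e b) := sum_comm
      _ = _ := by
          refine sum_congr rfl fun w _ => ?_
          rw [mul_sum]
          refine sum_congr rfl fun a _ => ?_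
          rw [mul_sum]
  -- assembling
  have g1 := geo_log hW
  have g2 := weight_step (S := lad W) hQ0 hl0 hQ1 hQs hr0 i
  rw [gain_zero hW] at g2
  have g3 := prod_step (S := G2) (T := kp (lad W) i) hQ0 hG20 hT0 hQ1 hQs hr0 1 i
  have g4 := closing hW (1 + i + 1) G hG0 (A := 3 * (∑ a, rho W a * Real.log (rr W a)) +
    1 / 2 * en (qq W) (rho W) 1 - 1 / 2 * (∑ a, rho W a * Real.log (W a.1 a.2)) +
    ((i : ℝ) + 1) * (∑ a, rho W a * Real.log (rr W a))) (by linarith)
  have g5 : Real.log (∑ e, ∑ a, ∑ b, G e a * lad W a b * G e b) ≤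
      Real.log (∑ e, ∑ w, dbl W e w * kp (lad W) (2 * i + 4) w e) := by
    rw [← htot]
    refine Real.log_le_log ?_ (sum_le_sum fun e _ => hAM e)
    exact sum_pos (fun e _ => sum_pos (fun a _ => sum_pos (fun b _ => mul_pos (mul_pos
      (hG0 _ _) (hl0 _ _)) (hG0 _ _)) univ_nonempty) univ_nonempty) univ_nonempty
  have h3 := en_tele1 hQ0 hQ1 hr0 hQs 1 (i + 1)
  have h4 := en_ge hQ0 hr0 (rho_sum hW) hQs (1 + (i + 1) + 1)
  have h9 := en_ge hQ0 hr0 (rho_sum hW) hQs 1
  have h5 := ell_ge hW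
  have hrel : ∑ a, rho W a * Real.log (rho W a) = ∑ a, rho W a * Real.log (W a.1 a.2) +
      ∑ a, rho W a * Real.log (rr W a) - Real.log (zc W) := by
    have e1 : Real.log (zc W) = ∑ a, rho W a * Real.log (zc W) := by
      rw [← sum_mul, rho_sum hW, one_mul]
    rw [e1, ← sum_add_distrib, ← sum_sub_distrib]
    refine sum_congr rfl fun a _ => ?_
    have e2 : Real.log (rho W a) = Real.log (W a.1 a.2) + Real.log (rr W a) -
        Real.log (zc W) := by
      unfold rho
      rw [Real.log_div (mul_pos (hW _ _) (rr_pos hW a)).ne' (zc_pos hW).ne',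
        Real.log_mul (hW _ _).ne' (rr_pos hW a).ne']
    rw [e2]; ring
  rw [hrel] at h4 h9
  have e0 : 1 + (i + 1) = 1 + i + 1 := rfl
  rw [e0] at h3 h4
  set ell : ℝ := ∑ a, rho W a * Real.log (rr W a) with hell
  set w : ℝ := ∑ a, rho W a * Real.log (W a.1 a.2) with hw
  set E0 : ℝ := en (qq W) (rho W) (1 + i + 1)
  set E1 : ℝ := en (qq W) (rho W) (1 + i + 1 + 1)
  set EJ : ℝ := en (qq W) (rho W) 1
  have hg : 2 * (E0 - E1) ≤ EJ - (w + ell - Real.log (zc W)) := by
    by_cases hE : 0 ≤ E0 - E1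
    · have : 2 * (E0 - E1) ≤ (((i + 1 : ℕ) : ℝ) + 1) * (E0 - E1) := by
        refine mul_le_mul_of_nonneg_right ?_ hE
        push_cast
        have : (0 : ℝ) ≤ i := Nat.cast_nonneg i
        linarith
      linarith
    · push Not at hE
      linarith
  have h7 : (0 : ℝ) ≤ 2 * (i : ℝ) + 10 := by positivity
  have h8 := mul_le_mul_of_nonneg_left h5 h7
  nlinarith

end global_

end Vale.Agent.P050.H173
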