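import Mathlib

/-!
Statement-level definitions.
-/

namespace Vale.Agent.P050.H173

/-- The places of the rungs: the rung `i` has place `i`, the additional rung has place `1`. -/
def place {k : ℕ} : ZMod k ⊕ Unit → ZMod k := Sum.elim id fun _ => 1

/-- The Moebius ladder with `k` rungs (`k` odd), with the rung `1` doubled: each of the `k + 1` rungs
`r` has two ends `(r, false)` and `(r, true)`, which are adjacent, and `(r, false)` is adjacent to
`(s, true)` when the places of the rungs `r` and `s` differ by one. -/
def oneDoubled (k : ℕ) : SimpleGraph ((ZMod k ⊕ Unit) × Bool) where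
  Adj u v := u.2 ≠ v.2 ∧ (u.1 = v.1 ∨ place u.1 = place v.1 + 1 ∨ place v.1 = place u.1 + 1)
  symm := ⟨fun u v h => ⟨h.1.symm, by
    rcases h.2 with h | h | h
    · exact Or.inl h.symm
    · exact Or.inr (Or.inr h)
    · exact Or.inr (Or.inl h)⟩⟩
  loopless := ⟨fun u h => h.1 rfl⟩

end Vale.Agent.P050.H173
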