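import Vale.Agent.P050.H173.One
import Vale.Agent.P050.H173.OneDefs
import Vale.Agent.P050.H223.Dbl5

set_option linter.all false

/-!
Moebius ladders with one doubled rung.
-/

namespace Vale.Agent.P050.H173

open Finset Vale.Agent.P050 Vale.Agent.P050.H148 Vale.Agent.P050.H180 Vale.Agent.P050.H223.Dbl
  Filter Topology

section weights

variable {X : Type*} [Fintype X] {W : X → X → ℝ}

/-- the measure on pairs -/
def mW (W : X → X → ℝ) (z : X × X) : ℝ := W z.1 z.2

/-- the kernel on pairs -/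
def nW (W : X → X → ℝ) (z w : X × X) : ℝ := W z.1 w.2 * W w.1 z.2

theorem nW_symm (W : X → X → ℝ) (z w : X × X) : nW W z w = nW W w z := by
  unfold nW; ring

/-- the number of homomorphisms, as a polynomial -/
def oneSum (W : X → X → ℝ) (i : ℕ) : ℝ :=
  ∑ z : ZMod (2 * (i + 1) + 4 + 1) → X × X, (∏ j, (mW W (z j) * nW W (z j) (z (j + 1)))) *
    bb (mW W) (nW W) (z 0) (z 2)

theorem oneSum_eq (W : X → X → ℝ) (i : ℕ) : oneSum W i =
    ∑ z, mW W z * ∑ a, mW W a * (bb (mW W) (nW W) z a * bb (mW W) (nW W) z a) *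
      it (mW W) (nW W) (2 * (i + 1) + 1) (fun a => bb (mW W) (nW W) z a) a := by
  have key := closed_sum (m := mW W) (nW_symm W) (i + 1) (bb (mW W) (nW W)) (fun _ _ => 1)
  unfold oneSum
  rw [cyc_path (2 * (i + 1) + 4)]
  have s3 : (0 : ZMod (2 * (i + 1) + 4 + 1)) = ((0 : ℕ) : ZMod (2 * (i + 1) + 4 + 1)) := by
    simp
  have s4 : (2 : ZMod (2 * (i + 1) + 4 + 1)) = ((2 : ℕ) : ZMod (2 * (i + 1) + 4 + 1)) := by
    push_cast; ring
  rw [s3, s4]
  beta_reduce
  rw [res_symm _ 0 (by omega), res_symm _ 2 (by omega)]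
  refine Eq.trans (sum_congr rfl fun y _ => ?_) (key.trans (sum_congr rfl fun z _ => ?_))
  · have e0 : (⟨0, by omega⟩ : Fin (2 * (i + 1) + 4 + 1)) = 0 := rfl
    rw [e0, mul_one]
  · congr 1
    refine sum_congr rfl fun a _ => ?_
    simp only [mul_one]

variable [Nonempty X]

theorem kp_it (h0 : ∀ x y, 0 ≤ W x y) (n : ℕ) (a z : X × X) : kp (lad W) (n + 1) a z =
    Real.sqrt (mW W a) * Real.sqrt (mW W z) *
      it (mW W) (nW W) n (fun b => bb (mW W) (nW W) z b) a := by
  induction n generalizing a with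
  | zero =>
    change ∑ c, lad W a c * lad W c z = Real.sqrt (mW W a) * Real.sqrt (mW W z) *
      ∑ e, mW W e * nW W z e * nW W e a
    rw [mul_sum]
    refine sum_congr rfl fun c _ => ?_
    have h1 := Real.mul_self_sqrt (h0 c.1 c.2)
    unfold lad mW nW
    calc Real.sqrt (W a.1 a.2) * Real.sqrt (W c.1 c.2) * (W a.1 c.2 * W c.1 a.2) *
          (Real.sqrt (W c.1 c.2) * Real.sqrt (W z.1 z.2) * (W c.1 z.2 * W z.1 c.2))
        = Real.sqrt (W a.1 a.2) * Real.sqrt (W z.1 z.2) * ((Real.sqrt (W c.1 c.2) *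
          Real.sqrt (W c.1 c.2)) * (W z.1 c.2 * W c.1 z.2) * (W c.1 a.2 * W a.1 c.2)) := by ring
      _ = _ := by rw [h1]
  | succ n ih =>
    rw [kp_left]
    change _ = Real.sqrt (mW W a) * Real.sqrt (mW W z) *
      ∑ b, mW W b * nW W a b * it (mW W) (nW W) n (fun b => bb (mW W) (nW W) z b) b
    rw [mul_sum]
    refine sum_congr rfl fun c _ => ?_
    rw [ih c]
    have h1 := Real.mul_self_sqrt (h0 c.1 c.2)
    set I := it (mW W) (nW W) n (fun b => bb (mW W) (nW W) z b) c
    unfold lad mW nW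
    calc Real.sqrt (W a.1 a.2) * Real.sqrt (W c.1 c.2) * (W a.1 c.2 * W c.1 a.2) *
          (Real.sqrt (W c.1 c.2) * Real.sqrt (W z.1 z.2) * I)
        = Real.sqrt (W a.1 a.2) * Real.sqrt (W z.1 z.2) * ((Real.sqrt (W c.1 c.2) *
          Real.sqrt (W c.1 c.2)) * (W a.1 c.2 * W c.1 a.2) * I) := by ring
      _ = _ := by rw [h1]

theorem one_total [DecidableEq X] (hW : ∀ x y, 0 < W x y) (i : ℕ) :
    ∑ e, ∑ w, dbl W e w * kp (lad W) (2 * i + 4) w e = oneSum W i := by
  rw [oneSum_eq]
  refine sum_congr rfl fun e _ => ?_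
  rw [mul_sum]
  refine sum_congr rfl fun w _ => ?_
  have h0 : ∀ x y, 0 ≤ W x y := fun x y => (hW x y).le
  have e1 := kp_it h0 (2 * i + 3) w e
  have e2 := kp_it h0 0 w e
  have e3 : kp (lad W) 1 e w = kp (lad W) 1 w e := kp_symm (lad_symm W) 1 e w
  have e4 : 2 * i + 4 = 2 * i + 3 + 1 := rfl
  have e5 : 2 * (i + 1) + 1 = 2 * i + 3 := by ring
  rw [e4, e1, e5]
  unfold dbl
  rw [e3, e2]
  have e6 : it (mW W) (nW W) 0 (fun b => bb (mW W) (nW W) e b) w = bb (mW W) (nW W) e w := rfl
  rw [e6]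
  have hs1 : 0 < Real.sqrt (W e.1 e.2) := Real.sqrt_pos.mpr (hW _ _)
  have hs2 : 0 < Real.sqrt (W w.1 w.2) := Real.sqrt_pos.mpr (hW _ _)
  have h1 : Real.sqrt (mW W e) = Real.sqrt (W e.1 e.2) := rfl
  have h2 : Real.sqrt (mW W w) = Real.sqrt (W w.1 w.2) := rfl
  have h3 : mW W e = Real.sqrt (W e.1 e.2) * Real.sqrt (W e.1 e.2) :=
    (Real.mul_self_sqrt (h0 _ _)).symm
  have h4 : mW W w = Real.sqrt (W w.1 w.2) * Real.sqrt (W w.1 w.2) :=
    (Real.mul_self_sqrt (h0 _ _)).symm
  rw [h1, h2]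
  set I := it (mW W) (nW W) (2 * i + 3) (fun b => bb (mW W) (nW W) e b) w
  set Bw := bb (mW W) (nW W) e w
  rw [h3, h4]
  field_simp

variable [DecidableEq X]

theorem one_pow (hW : ∀ x y, 0 < W x y) (i : ℕ) :
    zc W ^ (2 * i + 9) ≤ (∑ a : X × X, W a.1 a.2) ^ (2 * i + 10) * oneSum W i := by
  have h1 : 0 < zc W := zc_pos hW
  have h2 : 0 < ∑ a : X × X, W a.1 a.2 := sum_pos (fun a _ => hW _ _) univ_nonempty
  have h3 : 0 < oneSum W i := by
    rw [← one_total hW]
    exact sum_pos (fun e _ => sum_pos (fun w _ => mul_pos (dbl_pos hW e w)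
      (kp_pos (lad_pos hW) _ _ _)) univ_nonempty) univ_nonempty
  have key := one_log hW i
  rw [one_total hW] at key
  rw [← Real.log_le_log_iff (pow_pos h1 _) (mul_pos (pow_pos h2 _) h3),
    Real.log_mul (pow_pos h2 _).ne' h3.ne', Real.log_pow, Real.log_pow]
  push_cast
  linarith

theorem one_le (h0 : ∀ x y, 0 ≤ W x y) (i : ℕ) :
    zc W ^ (2 * i + 9) ≤ (∑ a : X × X, W a.1 a.2) ^ (2 * i + 10) * oneSum W i := by
  set V : ℝ → X → X → ℝ := fun ε x y => W x y + ε with hV
  have hVc : ∀ x y, Continuous fun ε => V ε x y := fun x y => by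
    simp only [hV]; fun_prop
  have hV0 : V 0 = W := by
    funext x y
    simp only [hV]; ring
  have c1 : Continuous fun ε => zc (V ε) ^ (2 * i + 9) := by
    refine Continuous.pow ?_ _
    unfold zc rr
    refine continuous_finset_sum _ fun a _ => (hVc _ _).mul ?_
    refine continuous_finset_sum _ fun x' _ => continuous_finset_sum _ fun y' _ => ?_
    exact ((hVc _ _).mul (hVc _ _)).mul (hVc _ _)
  have c2 : Continuous fun ε => (∑ a : X × X, V ε a.1 a.2) ^ (2 * i + 10) *
      oneSum (V ε) i := by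
    refine Continuous.mul (Continuous.pow ?_ _) ?_
    · exact continuous_finset_sum _ fun a _ => hVc _ _
    · unfold oneSum bb mW nW
      refine continuous_finset_sum _ fun z _ => Continuous.mul ?_ ?_
      · refine continuous_finset_prod _ fun j _ => ?_
        exact (hVc _ _).mul ((hVc _ _).mul (hVc _ _))
      · refine continuous_finset_sum _ fun e _ => ?_
        exact ((hVc _ _).mul ((hVc _ _).mul (hVc _ _))).mul ((hVc _ _).mul (hVc _ _))
  have t1 := (c1.tendsto 0).mono_left (nhdsWithin_le_nhds (s := Set.Ioi (0 : ℝ)))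
  have t2 := (c2.tendsto 0).mono_left (nhdsWithin_le_nhds (s := Set.Ioi (0 : ℝ)))
  simp only [hV0] at t1 t2
  refine le_of_tendsto_of_tendsto t1 t2 ?_
  filter_upwards [self_mem_nhdsWithin] with ε hε
  have hp : ∀ x y, 0 < V ε x y := fun x y => by
    simp only [hV]
    have e1 := h0 x y
    have e2 : (0 : ℝ) < ε := hε
    linarith
  exact one_pow hp i

end weights

section graph

variable {X : Type*} [Fintype X]

theorem hom_iff1 (G : SimpleGraph X) (k : ℕ) (z : ZMod k ⊕ Unit → X × X)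
    (h11 : (1 : ZMod k) ≠ 1 + 1) :
    IsHom (oneDoubled k) G ((pairEquiv _ _).symm z) ↔
      (∀ i : ZMod k, G.Adj (z (Sum.inl i)).1 (z (Sum.inl i)).2 ∧
        G.Adj (z (Sum.inl i)).1 (z (Sum.inl (i + 1))).2 ∧
        G.Adj (z (Sum.inl (i + 1))).1 (z (Sum.inl i)).2) ∧
      (∀ c : Unit, G.Adj (z (Sum.inr c)).1 (z (Sum.inr c)).2 ∧
        (G.Adj (z (Sum.inl (1 - 1))).1 (z (Sum.inr c)).2 ∧
          G.Adj (z (Sum.inr c)).1 (z (Sum.inl (1 - 1))).2) ∧
        (G.Adj (z (Sum.inr c)).1 (z (Sum.inl (1 + 1))).2 ∧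
          G.Adj (z (Sum.inl (1 + 1))).1 (z (Sum.inr c)).2)) := by
  constructor
  · intro h
    refine ⟨fun i => ⟨?_, ?_, ?_⟩, fun c => ⟨?_, ⟨?_, ?_⟩, ?_, ?_⟩⟩
    · exact h (Sum.inl i, false) (Sum.inl i, true) ⟨by simp, Or.inl rfl⟩
    · exact h (Sum.inl i, false) (Sum.inl (i + 1), true) ⟨by simp, Or.inr (Or.inr rfl)⟩
    · exact h (Sum.inl (i + 1), false) (Sum.inl i, true) ⟨by simp, Or.inr (Or.inl rfl)⟩
    · exact h (Sum.inr c, false) (Sum.inr c, true) ⟨by simp, Or.inl rfl⟩
    · exact h (Sum.inl (1 - 1), false) (Sum.inr c, true) ⟨by simp, Or.inr (Or.inr (by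
        simp [place]))⟩
    · exact h (Sum.inr c, false) (Sum.inl (1 - 1), true) ⟨by simp, Or.inr (Or.inl (by
        simp [place]))⟩
    · exact h (Sum.inr c, false) (Sum.inl (1 + 1), true) ⟨by simp, Or.inr (Or.inr (by
        simp [place]))⟩
    · exact h (Sum.inl (1 + 1), false) (Sum.inr c, true) ⟨by simp, Or.inr (Or.inl (by
        simp [place]))⟩
  · rintro ⟨h1, h2⟩
    -- adjacency of the first end of `u` and the second end of `v`
    have key : ∀ u v : ZMod k ⊕ Unit, (u = v ∨ place u = place v + 1 ∨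
        place v = place u + 1) → G.Adj (z u).1 (z v).2 := by
      intro u v huv
      rcases huv with h | h | h
      · subst h
        rcases u with i | c
        · exact (h1 i).1
        · exact (h2 c).1
      · rcases u with i | c <;> rcases v with j | d <;> simp only [place, Sum.elim_inl,
          Sum.elim_inr, id] at h
        · subst h; exact (h1 j).2.2
        · subst h; exact (h2 d).2.2.2
        · have : j = 1 - 1 := eq_sub_of_add_eq h.symm
          subst this; exact (h2 c).2.1.2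
        · exact absurd h h11
      · rcases u with i | c <;> rcases v with j | d <;> simp only [place, Sum.elim_inl,
          Sum.elim_inr, id] at h
        · subst h; exact (h1 i).2.1
        · have : i = 1 - 1 := eq_sub_of_add_eq h.symm
          subst this; exact (h2 d).2.1.1
        · subst h; exact (h2 c).2.2.1
        · exact absurd h h11
    rintro ⟨u, a⟩ ⟨v, b⟩ ⟨hab, huv⟩
    simp only at hab huv
    cases a <;> cases b
    · exact absurd rfl hab
    · exact key u v huv
    · refine (key v u ?_).symm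
      rcases huv with h | h | h
      · exact Or.inl h.symm
      · exact Or.inr (Or.inr h)
      · exact Or.inr (Or.inl h)
    · exact absurd rfl hab

open Classical in
/-- the number of homomorphisms -/
theorem card_one (G : SimpleGraph X) (k : ℕ) [NeZero k] (h11 : (1 : ZMod k) ≠ 1 + 1) :
    (Nat.card (oneDoubled k →g G) : ℝ) = ∑ z : ZMod k → X × X,
      (∏ i, (mu G (z i) * nn G (z i) (z (i + 1)))) *
        bb (mu G) (nn G) (z (1 - 1)) (z (1 + 1)) := by
  rw [card_hom]
  rw [← (pairEquiv (ZMod k ⊕ Unit) X).symm.sum_comp]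
  rw [← (Equiv.sumArrowEquivProdArrow (ZMod k) Unit (X × X)).symm.sum_comp,
    Fintype.sum_prod_type]
  refine sum_congr rfl fun z _ => ?_
  have h1 : ∀ e : Unit → X × X,
      (if IsHom (oneDoubled k) G ((pairEquiv _ _).symm
        ((Equiv.sumArrowEquivProdArrow (ZMod k) Unit (X × X)).symm (z, e))) then (1 : ℝ) else 0) =
      (∏ i, (mu G (z i) * nn G (z i) (z (i + 1)))) *
        ∏ c, (mu G (e c) * nn G (z (1 - 1)) (e c) * nn G (e c) (z (1 + 1))) := by
    intro e
    by_cases h : IsHom (oneDoubled k) G ((pairEquiv _ _).symm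
        ((Equiv.sumArrowEquivProdArrow (ZMod k) Unit (X × X)).symm (z, e)))
    · rw [if_pos h]
      obtain ⟨h2, h3⟩ := (hom_iff1 G k _ h11).mp h
      have e1 : ∏ i, (mu G (z i) * nn G (z i) (z (i + 1))) = 1 := by
        refine prod_eq_one fun i _ => ?_
        have g1 : G.Adj (z i).1 (z i).2 := (h2 i).1
        have g2 : G.Adj (z i).1 (z (i + 1)).2 := (h2 i).2.1
        have g3 : G.Adj (z (i + 1)).1 (z i).2 := (h2 i).2.2
        unfold mu nn
        rw [adj_one g1, adj_one g2, adj_one g3]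
        norm_num
      have e2 : ∏ c, (mu G (e c) * nn G (z (1 - 1)) (e c) * nn G (e c) (z (1 + 1))) = 1 := by
        refine prod_eq_one fun c _ => ?_
        have g1 : G.Adj (e c).1 (e c).2 := (h3 c).1
        have g2 : G.Adj (z (1 - 1)).1 (e c).2 := (h3 c).2.1.1
        have g3 : G.Adj (e c).1 (z (1 - 1)).2 := (h3 c).2.1.2
        have g4 : G.Adj (e c).1 (z (1 + 1)).2 := (h3 c).2.2.1
        have g5 : G.Adj (z (1 + 1)).1 (e c).2 := (h3 c).2.2.2
        unfold mu nn
        rw [adj_one g1, adj_one g2, adj_one g3, adj_one g4, adj_one g5]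
        norm_num
      rw [e1, e2, one_mul]
    · rw [if_neg h]
      by_contra hne
      apply h
      have hne' := Ne.symm hne
      have n1 := left_ne_zero_of_mul hne'
      have n2 := right_ne_zero_of_mul hne'
      rw [prod_ne_zero_iff] at n1 n2
      refine (hom_iff1 G k _ h11).mpr ⟨fun i => ?_, fun c => ?_⟩
      · have n3 := n1 i (mem_univ i)
        have n4 := nn_ne (right_ne_zero_of_mul n3)
        exact ⟨adj_ne (left_ne_zero_of_mul n3), n4.1, n4.2⟩
      · have n3 := n2 c (mem_univ c)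
        have n4 := nn_ne (right_ne_zero_of_mul n3)
        have n5 := nn_ne (right_ne_zero_of_mul (left_ne_zero_of_mul n3))
        have n6 := left_ne_zero_of_mul (left_ne_zero_of_mul n3)
        exact ⟨adj_ne n6, ⟨n5.1, n5.2⟩, n4.1, n4.2⟩
  simp only [h1]
  rw [← mul_sum]
  congr 1
  unfold bb
  rw [← Fintype.piFinset_univ, ← Finset.prod_univ_sum (fun _ : Unit => (univ : Finset (X × X)))
    (fun _ e => mu G e * nn G (z (1 - 1)) e * nn G e (z (1 + 1)))]
  simp

/-- a Moebius ladder with one doubled rung and the four-cycle -/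
theorem one_graph (G : SimpleGraph X) [Nonempty X] (k : ℕ) (hk : Odd k) (hk7 : 7 ≤ k) :
    homDensity (SimpleGraph.cycleGraph 4) G ^ (k + 2) ≤
      edgeDensity G ^ (k + 3) * homDensity (oneDoubled k) G := by
  classical
  obtain ⟨i, rfl⟩ : ∃ i, k = 2 * (i + 1) + 4 + 1 := by
    obtain ⟨j, hj⟩ := hk
    exact ⟨j - 3, by omega⟩
  have hn : 0 < Fintype.card X := Fintype.card_pos
  have hn0 : (0 : ℝ) < Fintype.card X := by exact_mod_cast hn
  have h0 : ∀ x y, 0 ≤ adj G x y := fun x y => by simp only [adj]; split_ifs <;> norm_num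
  have h11 : (1 : ZMod (2 * (i + 1) + 4 + 1)) ≠ 1 + 1 := by
    have h1 := cast_ne (2 * (i + 1) + 4 + 1) 1 (by omega) (by omega)
    push_cast at h1
    intro h
    apply h1
    linear_combination -h
  have hcard : (Nat.card (oneDoubled (2 * (i + 1) + 4 + 1) →g G) : ℝ) = oneSum (adj G) i := by
    rw [card_one G _ h11]
    unfold oneSum
    refine sum_congr rfl fun z _ => ?_
    have s3 : (1 - 1 : ZMod (2 * (i + 1) + 4 + 1)) = 0 := by ring
    have s4 : (1 + 1 : ZMod (2 * (i + 1) + 4 + 1)) = 2 := by ring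
    rw [s3, s4]
    rfl
  have hd : homDensity (oneDoubled (2 * (i + 1) + 4 + 1)) G =
      oneSum (adj G) i / (Fintype.card X : ℝ) ^ (4 * i + 16) := by
    unfold homDensity
    rw [hcard, Nat.card_eq_fintype_card (α := X)]
    congr 2
    rw [Nat.card_prod, Nat.card_sum, Nat.card_zmod]
    simp only [Nat.card_eq_fintype_card, Fintype.card_bool, Fintype.card_unit]
    ring
  have hp := adj_sum G
  have hp' : ∑ a : X × X, adj G a.1 a.2 = edgeDensity G * (Fintype.card X : ℝ) ^ 2 := by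
    rw [Fintype.sum_prod_type, ← hp]; field_simp
  have hfour : homDensity (SimpleGraph.cycleGraph 4) G * (Fintype.card X : ℝ) ^ 4 =
      zc (adj G) := four_density G
  have key := one_le h0 i
  rw [← hfour, hp'] at key
  rw [hd]
  set n : ℝ := (Fintype.card X : ℝ) with hndef
  set T : ℝ := homDensity (SimpleGraph.cycleGraph 4) G with hT
  set p : ℝ := edgeDensity G with hpd
  set D : ℝ := oneSum (adj G) i with hD
  have e1 : (T * n ^ 4) ^ (2 * i + 9) = T ^ (2 * (i + 1) + 4 + 1 + 2) * n ^ (8 * i + 36) := by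
    rw [mul_pow, ← pow_mul]; congr 2; ring
  have e2 : (p * n ^ 2) ^ (2 * i + 10) * D =
      p ^ (2 * (i + 1) + 4 + 1 + 3) * (D / n ^ (4 * i + 16)) * n ^ (8 * i + 36) := by
    have e3 : n ^ (8 * i + 36) = n ^ (4 * i + 16) * n ^ (4 * i + 20) := by
      rw [← pow_add]; congr 1; ring
    have e4 : (p * n ^ 2) ^ (2 * i + 10) = p ^ (2 * (i + 1) + 4 + 1 + 3) * n ^ (4 * i + 20) := by
      rw [mul_pow, ← pow_mul]; congr 2; ring
    rw [e3, e4]
    field_simp
  rw [e1, e2] at key
  exact le_of_mul_le_mul_right key (by positivity)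

/-- Sidorenko's inequality for Moebius ladders with one doubled rung -/
theorem one_sidorenko (G : SimpleGraph X) [Nonempty X] (k : ℕ) (hk : Odd k) (hk7 : 7 ≤ k) :
    edgeDensity G ^ (3 * k + 5) ≤ homDensity (oneDoubled k) G := by
  have h1 := one_graph G k hk hk7
  have hnn : 0 ≤ edgeDensity G := by unfold edgeDensity; positivity
  rcases hnn.lt_or_eq with hpos | hz
  · have h5 : edgeDensity G ^ (k + 3) * edgeDensity G ^ (3 * k + 5) ≤
        edgeDensity G ^ (k + 3) * homDensity (oneDoubled k) G := by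
      refine le_trans (le_of_eq ?_) ((pow_le_pow_left₀ (pow_nonneg hnn 4) (four_ge G)
        (k + 2)).trans h1)
      rw [← pow_add, ← pow_mul]; congr 1; ring
    exact le_of_mul_le_mul_left h5 (by positivity)
  · rw [← hz, zero_pow (by omega)]
    unfold homDensity; positivity

end graph

end Vale.Agent.P050.H173
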