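import Vale.Agent.P050.H148.Main

set_option linter.all false

/-!
Moebius ladders in weighted graphs with many cycles of length 4: `t(C₄) ^ (k+1) ≤ p ^ k t(M_k)`.
-/

namespace Vale.Agent.P050.H173

open Finset Vale.Agent.P050.H148

section moments

variable {ι : Type*} [Fintype ι]

theorem cheb (ν q : ι → ℝ) (hν : ∀ i, 0 ≤ ν i) (hq : ∀ i, 0 ≤ q i) (m : ℕ) :
    (∑ i, ν i * q i ^ m) * (∑ i, ν i * q i) ≤ (∑ i, ν i * q i ^ (m + 1)) * ∑ i, ν i := by
  have h : 0 ≤ ∑ i, ∑ j, ν i * ν j * ((q i ^ m - q j ^ m) * (q i - q j)) := by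
    refine sum_nonneg fun i _ => sum_nonneg fun j _ => mul_nonneg (mul_nonneg (hν i) (hν j)) ?_
    rcases le_total (q i) (q j) with h | h
    · exact mul_nonneg_of_nonpos_of_nonpos
        (sub_nonpos.2 (pow_le_pow_left₀ (hq i) h m)) (sub_nonpos.2 h)
    · exact mul_nonneg (sub_nonneg.2 (pow_le_pow_left₀ (hq j) h m)) (sub_nonneg.2 h)
  have e : ∑ i, ∑ j, ν i * ν j * ((q i ^ m - q j ^ m) * (q i - q j)) =
      2 * ((∑ i, ν i * q i ^ (m + 1)) * ∑ i, ν i) -
        2 * ((∑ i, ν i * q i ^ m) * (∑ i, ν i * q i)) := by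
    have e1 : ∀ i j, ν i * ν j * ((q i ^ m - q j ^ m) * (q i - q j)) =
        (ν i * q i ^ (m + 1)) * ν j + ν i * (ν j * q j ^ (m + 1)) -
          (ν i * q i ^ m) * (ν j * q j) - (ν i * q i) * (ν j * q j ^ m) := by
      intro i j; ring
    simp only [e1, sum_sub_distrib, sum_add_distrib, ← mul_sum, ← sum_mul]
    ring
  linarith

theorem moments (ν l : ι → ℝ) (hν : ∀ i, 0 ≤ ν i) (m : ℕ) :
    (∑ i, ν i) * (∑ i, ν i * l i) ^ (2 * m) ≤
      (∑ i, ν i * (l i ^ 2) ^ m) * (∑ i, ν i) ^ (2 * m) := by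
  have h0 : 0 ≤ ∑ i, ν i := sum_nonneg fun i _ => hν i
  have hcs : (∑ i, ν i * l i) ^ 2 ≤ (∑ i, ν i * l i ^ 2) * ∑ i, ν i := by
    refine sum_sq_le_sum_mul_sum_of_sq_eq_mul _ (fun i _ => mul_nonneg (hν i) (sq_nonneg _))
      (fun i _ => hν i) fun i _ => by ring
  induction m with
  | zero => simp
  | succ m ih =>
    have h1 := cheb ν (fun i => l i ^ 2) hν (fun i => sq_nonneg _) m
    have hm : 0 ≤ ∑ i, ν i * (l i ^ 2) ^ m :=
      sum_nonneg fun i _ => mul_nonneg (hν i) (pow_nonneg (sq_nonneg _) _)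
    calc (∑ i, ν i) * (∑ i, ν i * l i) ^ (2 * (m + 1))
        = ((∑ i, ν i) * (∑ i, ν i * l i) ^ (2 * m)) * (∑ i, ν i * l i) ^ 2 := by ring
      _ ≤ ((∑ i, ν i * (l i ^ 2) ^ m) * (∑ i, ν i) ^ (2 * m)) *
          ((∑ i, ν i * l i ^ 2) * ∑ i, ν i) := by
          refine mul_le_mul ih hcs (sq_nonneg _) (mul_nonneg hm (pow_nonneg h0 _))
      _ = ((∑ i, ν i * (l i ^ 2) ^ m) * (∑ i, ν i * l i ^ 2)) *
          ((∑ i, ν i) ^ (2 * m) * ∑ i, ν i) := by ring
      _ ≤ ((∑ i, ν i * (l i ^ 2) ^ (m + 1)) * ∑ i, ν i) *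
          ((∑ i, ν i) ^ (2 * m) * ∑ i, ν i) := by
          refine mul_le_mul_of_nonneg_right h1 (mul_nonneg (pow_nonneg h0 _) h0)
      _ = _ := by ring

/-- the combination of the moment inequalities -/
theorem combine (ν l : ι → ℝ) (hν : ∀ i, 0 ≤ ν i) (m : ℕ) {T : ℝ} (hT : 0 ≤ T)
    (h : (∑ i, ν i * (l i ^ 2) ^ (m + 1)) ^ 2 ≤ (∑ i, ν i * (l i ^ 2) ^ m) * T) :
    (∑ i, ν i * l i) ^ (2 * m + 4) ≤ (∑ i, ν i) ^ (2 * m + 3) * T := by
  set S0 := ∑ i, ν i with hS0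
  set S1 := ∑ i, ν i * l i with hS1
  set A := ∑ i, ν i * (l i ^ 2) ^ m with hA
  set B := ∑ i, ν i * (l i ^ 2) ^ (m + 1) with hB
  have h0 : 0 ≤ S0 := sum_nonneg fun i _ => hν i
  have hA0 : 0 ≤ A := sum_nonneg fun i _ => mul_nonneg (hν i) (pow_nonneg (sq_nonneg _) _)
  have hB0 : 0 ≤ B := sum_nonneg fun i _ => mul_nonneg (hν i) (pow_nonneg (sq_nonneg _) _)
  have hcs : S1 ^ 2 ≤ (∑ i, ν i * l i ^ 2) * S0 := by
    refine sum_sq_le_sum_mul_sum_of_sq_eq_mul _ (fun i _ => mul_nonneg (hν i) (sq_nonneg _))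
      (fun i _ => hν i) fun i _ => by ring
  have hc := cheb ν (fun i => l i ^ 2) hν (fun i => sq_nonneg _) m
  have hm := moments ν l hν m
  rw [← hS0, ← hS1, ← hA] at hm
  have h2 : A * S1 ^ 2 ≤ B * S0 ^ 2 := by
    calc A * S1 ^ 2 ≤ A * ((∑ i, ν i * l i ^ 2) * S0) := mul_le_mul_of_nonneg_left hcs hA0
      _ = (A * (∑ i, ν i * l i ^ 2)) * S0 := by ring
      _ ≤ (B * S0) * S0 := mul_le_mul_of_nonneg_right hc h0
      _ = _ := by ring
  rcases h0.lt_or_eq with hp | hz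
  · rcases hA0.lt_or_eq with hAp | hAz
    · have h3 : (A * S1 ^ 2) ^ 2 ≤ (B * S0 ^ 2) ^ 2 :=
        pow_le_pow_left₀ (mul_nonneg hA0 (sq_nonneg _)) h2 2
      have h4 : A * (A * S1 ^ 4) ≤ A * (T * S0 ^ 4) := by
        calc A * (A * S1 ^ 4) = (A * S1 ^ 2) ^ 2 := by ring
          _ ≤ (B * S0 ^ 2) ^ 2 := h3
          _ = B ^ 2 * S0 ^ 4 := by ring
          _ ≤ (A * T) * S0 ^ 4 := mul_le_mul_of_nonneg_right h (pow_nonneg h0 _)
          _ = _ := by ring
      have h5 : A * S1 ^ 4 ≤ T * S0 ^ 4 := le_of_mul_le_mul_left h4 hAp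
      have h6 : S0 * S1 ^ (2 * m + 4) ≤ S0 * (S0 ^ (2 * m + 3) * T) := by
        calc S0 * S1 ^ (2 * m + 4) = (S0 * S1 ^ (2 * m)) * S1 ^ 4 := by ring
          _ ≤ (A * S0 ^ (2 * m)) * S1 ^ 4 :=
              mul_le_mul_of_nonneg_right hm (by positivity)
          _ = (A * S1 ^ 4) * S0 ^ (2 * m) := by ring
          _ ≤ (T * S0 ^ 4) * S0 ^ (2 * m) := mul_le_mul_of_nonneg_right h5 (pow_nonneg h0 _)
          _ = _ := by ring
      exact le_of_mul_le_mul_left h6 hp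
    · rw [← hAz, zero_mul] at hm
      have h7 : S1 ^ (2 * m) ≤ 0 := by
        by_contra hcon
        push Not at hcon
        exact absurd hm (not_le.2 (mul_pos hp hcon))
      have h8 : S1 ^ (2 * m + 4) ≤ 0 := by
        rw [pow_add]
        exact mul_nonpos_of_nonpos_of_nonneg h7 (by positivity)
      exact h8.trans (mul_nonneg (pow_nonneg h0 _) hT)
  · have hνz : ∀ i, ν i = 0 := fun i =>
      (sum_eq_zero_iff_of_nonneg fun i _ => hν i).1 (hS0.symm.trans hz.symm) i (mem_univ i)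
    have hS1z : S1 = 0 := by rw [hS1]; exact sum_eq_zero fun i _ => by rw [hνz i, zero_mul]
    rw [hS1z, zero_pow (by omega)]
    exact mul_nonneg (pow_nonneg h0 _) hT

end moments

section c4

variable {X : Type*} [Fintype X]

/-- Sidorenko's inequality for the cycle with four vertices -/
theorem c4_ge (g : X → X → ℝ) :
    (∑ x, ∑ y, g x y) ^ 4 ≤ (Fintype.card X : ℝ) ^ 4 *
      ∑ x, ∑ x', (∑ y, g x y * g x' y) ^ 2 := by
  set n : ℝ := (Fintype.card X : ℝ) with hn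
  have hn0 : 0 ≤ n := Nat.cast_nonneg _
  have h1 : (∑ x, ∑ y, g x y) ^ 2 ≤ n * ∑ y, (∑ x, g x y) ^ 2 := by
    rw [sum_comm]
    have := sq_sum_le_card_mul_sum_sq (s := (univ : Finset X)) (f := fun y => ∑ x, g x y)
    simpa using this
  have h2 : ∑ y, (∑ x, g x y) ^ 2 = ∑ x, ∑ x', ∑ y, g x y * g x' y := by
    simp only [sq, sum_mul_sum]
    rw [sum_comm]
    refine sum_congr rfl fun x _ => ?_
    rw [sum_comm]
  have h3 : (∑ x, ∑ x', ∑ y, g x y * g x' y) ^ 2 ≤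
      n ^ 2 * ∑ x, ∑ x', (∑ y, g x y * g x' y) ^ 2 := by
    have e := sq_sum_le_card_mul_sum_sq (s := (univ : Finset X))
      (f := fun x => ∑ x', ∑ y, g x y * g x' y)
    have e2 : ∀ x, (∑ x', ∑ y, g x y * g x' y) ^ 2 ≤ n * ∑ x', (∑ y, g x y * g x' y) ^ 2 := by
      intro x
      have := sq_sum_le_card_mul_sum_sq (s := (univ : Finset X))
        (f := fun x' => ∑ y, g x y * g x' y)
      simpa using this
    calc _ ≤ n * ∑ x, (∑ x', ∑ y, g x y * g x' y) ^ 2 := by simpa using e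
      _ ≤ n * ∑ x, n * ∑ x', (∑ y, g x y * g x' y) ^ 2 :=
          mul_le_mul_of_nonneg_left (sum_le_sum fun x _ => e2 x) hn0
      _ = _ := by rw [← mul_sum]; ring
  have h4 : 0 ≤ ∑ y, (∑ x, g x y) ^ 2 := sum_nonneg fun y _ => sq_nonneg _
  calc (∑ x, ∑ y, g x y) ^ 4 = ((∑ x, ∑ y, g x y) ^ 2) ^ 2 := by ring
    _ ≤ (n * ∑ y, (∑ x, g x y) ^ 2) ^ 2 := pow_le_pow_left₀ (sq_nonneg _) h1 2
    _ = n ^ 2 * (∑ x, ∑ x', ∑ y, g x y * g x' y) ^ 2 := by rw [mul_pow, h2]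
    _ ≤ n ^ 2 * (n ^ 2 * ∑ x, ∑ x', (∑ y, g x y * g x' y) ^ 2) :=
        mul_le_mul_of_nonneg_left h3 (by positivity)
    _ = _ := by ring

/-- the weighted version used for the ladders -/
theorem c4_weighted {W g : X → X → ℝ} {c : ℝ} (hg : ∀ x y, 0 ≤ g x y)
    (hgW : ∀ x y, g x y ≤ c * W x y) :
    (∑ x, ∑ y, g x y) ^ 4 ≤ (Fintype.card X : ℝ) ^ 4 *
      (c ^ 2 * ∑ x, ∑ x', ∑ y, ∑ y', g x y * g x' y' * (W x y' * W x' y)) := by
  refine (c4_ge g).trans (mul_le_mul_of_nonneg_left ?_ (by positivity))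
  rw [mul_sum]
  refine sum_le_sum fun x _ => ?_
  rw [mul_sum]
  refine sum_le_sum fun x' _ => ?_
  rw [sq, sum_mul_sum, mul_sum]
  refine sum_le_sum fun y _ => ?_
  rw [mul_sum]
  refine sum_le_sum fun y' _ => ?_
  have h1 : g x y' * g x' y ≤ (c * W x y') * (c * W x' y) :=
    mul_le_mul (hgW x y') (hgW x' y) (hg x' y) ((hg x y').trans (hgW x y'))
  calc g x y * g x' y * (g x y' * g x' y')
      = (g x y * g x' y') * (g x y' * g x' y) := by ring
    _ ≤ (g x y * g x' y') * ((c * W x y') * (c * W x' y)) :=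
        mul_le_mul_of_nonneg_left h1 (mul_nonneg (hg _ _) (hg _ _))
    _ = _ := by ring

end c4

section pow

variable {I : Type*} [Fintype I] [DecidableEq I] {M : I → I → ℝ} {l : I → ℝ} {f : I → I → ℝ}

/-- the entries of the powers of `M` -/
def mp (l : I → ℝ) (f : I → I → ℝ) (j : ℕ) (z a : I) : ℝ := ∑ i, l i ^ j * (f i z * f i a)

theorem mp_succ (h : Eig M l f) (j : ℕ) (z a : I) :
    mp l f (j + 1) z a = ∑ b, M a b * mp l f j z b := by
  unfold mp
  simp only [mul_sum]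
  rw [sum_comm]
  refine sum_congr rfl fun i _ => ?_
  have := h.apply i a
  calc l i ^ (j + 1) * (f i z * f i a) = l i ^ j * f i z * (l i * f i a) := by ring
    _ = l i ^ j * f i z * ∑ b, M a b * f i b := by rw [this]
    _ = _ := by
        rw [mul_sum]
        refine sum_congr rfl fun b _ => by ring

theorem mp_nonneg (h : Eig M l f) (hM : ∀ a b, 0 ≤ M a b) (j : ℕ) (z a : I) :
    0 ≤ mp l f j z a := by
  induction j generalizing a with
  | zero =>
    unfold mp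
    simp only [pow_zero, one_mul]
    rw [h.comp]
    split_ifs <;> norm_num
  | succ j ih =>
    rw [mp_succ h]
    exact sum_nonneg fun b _ => mul_nonneg (hM a b) (ih b)

/-- the coefficients -/
theorem mp_coef (h : Eig M l f) (j : ℕ) (z : I) (i : I) :
    ∑ a, f i a * mp l f j z a = l i ^ j * f i z := by
  unfold mp
  simp only [mul_sum]
  rw [sum_comm]
  have e : ∀ i', ∑ a, f i a * (l i' ^ j * (f i' z * f i' a)) =
      l i' ^ j * f i' z * if i = i' then 1 else 0 := by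
    intro i'
    rw [← h.orth i i', mul_sum]
    refine sum_congr rfl fun a _ => by ring
  simp only [e]
  simp

theorem mp_quad (h : Eig M l f) (j : ℕ) (z : I) :
    ∑ a, ∑ b, mp l f j z a * M a b * mp l f j z b = ∑ i, l i ^ (2 * j + 1) * f i z ^ 2 := by
  rw [h.quad]
  refine sum_congr rfl fun i _ => ?_
  rw [mp_coef h]; ring

theorem sum_f_sq (h : Eig M l f) (i : I) : ∑ z, f i z ^ 2 = 1 := by
  have := h.orth i i
  simpa [sq] using this

theorem mp_quad_sum (h : Eig M l f) (j : ℕ) :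
    ∑ z, ∑ a, ∑ b, mp l f j z a * M a b * mp l f j z b = ∑ i, l i ^ (2 * j + 1) := by
  simp only [mp_quad h]
  rw [sum_comm]
  refine sum_congr rfl fun i _ => ?_
  rw [← mul_sum, sum_f_sq h, mul_one]

/-- the inner products with a vector `s` -/
def cf (l : I → ℝ) (f : I → I → ℝ) (s : I → ℝ) (j : ℕ) (z : I) : ℝ := ∑ b, s b * mp l f j z b

theorem cf_eq (h : Eig M l f) (s : I → ℝ) (j : ℕ) (z : I) :
    cf l f s j z = ∑ i, l i ^ j * (∑ e, f i e * s e) * f i z := by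
  unfold cf mp
  simp only [mul_sum]
  rw [sum_comm]
  refine sum_congr rfl fun i _ => ?_
  rw [sum_mul]
  refine sum_congr rfl fun b _ => by ring

theorem sum_comb_sq (h : Eig M l f) (c : I → ℝ) : ∑ z, (∑ i, c i * f i z) ^ 2 = ∑ i, c i ^ 2 := by
  simp only [sq, sum_mul_sum]
  rw [sum_comm]
  refine sum_congr rfl fun i _ => ?_
  rw [sum_comm]
  have e : ∀ i', ∑ z, c i * f i z * (c i' * f i' z) = c i * c i' * if i = i' then 1 else 0 := by
    intro i'
    rw [← h.orth i i', mul_sum]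
    refine sum_congr rfl fun z _ => by ring
  simp only [e]
  simp

theorem cf_sq (h : Eig M l f) (s : I → ℝ) (j : ℕ) :
    ∑ z, cf l f s j z ^ 2 = ∑ i, (∑ e, f i e * s e) ^ 2 * (l i ^ 2) ^ j := by
  simp only [cf_eq h]
  rw [sum_comb_sq h]
  refine sum_congr rfl fun i _ => ?_
  rw [mul_pow, ← pow_mul, ← pow_mul, Nat.mul_comm, mul_comm]

end pow

section main

variable {X : Type*} [Fintype X] [DecidableEq X] {W : X → X → ℝ}
variable {l : X × X → ℝ} {f : X × X → X × X → ℝ}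

/-- the inequality at one vertex of the square of the graph -/
theorem at_point (h0 : ∀ x y, 0 ≤ W x y) (h1 : ∀ x y, W x y ≤ 1) (hL : Eig (lad W) l f)
    (m : ℕ) (z : X × X) :
    cf l f (fun a => Real.sqrt (W a.1 a.2)) (m + 1) z ^ 4 ≤
      cf l f (fun a => Real.sqrt (W a.1 a.2)) m z ^ 2 * ((Fintype.card X : ℝ) ^ 4 *
        ∑ a, ∑ b, mp l f (m + 1) z a * lad W a b * mp l f (m + 1) z b) := by
  have hP : ∀ a b, 0 ≤ lad W a b := by
    intro a b
    unfold lad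
    exact mul_nonneg (mul_nonneg (Real.sqrt_nonneg _) (Real.sqrt_nonneg _))
      (mul_nonneg (h0 _ _) (h0 _ _))
  set s : X × X → ℝ := fun a => Real.sqrt (W a.1 a.2) with hs
  have hs0 : ∀ a, 0 ≤ s a := fun a => Real.sqrt_nonneg _
  set c : ℝ := cf l f s m z with hc
  set g : X → X → ℝ := fun x y => s (x, y) * mp l f (m + 1) z (x, y) with hg
  have hmp : ∀ a, mp l f (m + 1) z a ≤ s a * c := by
    intro a
    rw [mp_succ hL, hc, cf, mul_sum]
    refine sum_le_sum fun b _ => ?_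
    rw [← mul_assoc]
    refine mul_le_mul_of_nonneg_right ?_ (mp_nonneg hL hP _ _ _)
    unfold lad
    have e : W a.1 b.2 * W b.1 a.2 ≤ 1 := mul_le_one₀ (h1 _ _) (h0 _ _) (h1 _ _)
    calc _ ≤ Real.sqrt (W a.1 a.2) * Real.sqrt (W b.1 b.2) * 1 :=
          mul_le_mul_of_nonneg_left e (mul_nonneg (Real.sqrt_nonneg _) (Real.sqrt_nonneg _))
      _ = _ := by rw [mul_one]
  have hg0 : ∀ x y, 0 ≤ g x y := fun x y => mul_nonneg (hs0 _) (mp_nonneg hL hP _ _ _)
  have hgW : ∀ x y, g x y ≤ c * W x y := by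
    intro x y
    have e := mul_le_mul_of_nonneg_left (hmp (x, y)) (hs0 (x, y))
    have e2 : s (x, y) * s (x, y) = W x y := Real.mul_self_sqrt (h0 x y)
    calc g x y ≤ s (x, y) * (s (x, y) * c) := e
      _ = (s (x, y) * s (x, y)) * c := by ring
      _ = _ := by rw [e2]; ring
  have key := c4_weighted hg0 hgW
  have e1 : cf l f s (m + 1) z = ∑ x, ∑ y, g x y := by
    rw [cf, Fintype.sum_prod_type]
  have e2 : ∑ a, ∑ b, mp l f (m + 1) z a * lad W a b * mp l f (m + 1) z b =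
      ∑ x, ∑ x', ∑ y, ∑ y', g x y * g x' y' * (W x y' * W x' y) := by
    rw [prod4]
    refine sum_congr rfl fun x _ => sum_congr rfl fun x' _ => sum_congr rfl fun y _ =>
      sum_congr rfl fun y' _ => ?_
    simp only [hg, hs, lad]
    ring
  rw [e1, e2]
  calc _ ≤ _ := key
    _ = _ := by ring

/-- `t(C₄) ^ (k+1) ≤ p ^ k t(M_k)` as a statement on sums -/
theorem rich_sum (hs : ∀ x y, W x y = W y x) (h0 : ∀ x y, 0 ≤ W x y) (h1 : ∀ x y, W x y ≤ 1)
    (k : ℕ) [NeZero k] (hk : Odd k) (hk3 : 3 ≤ k) :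
    (∑ x, ∑ x', ∑ y, ∑ y', om W x x' y y') ^ (k + 1) ≤
      (∑ x, ∑ y, W x y) ^ k * ((Fintype.card X : ℝ) ^ 4 * ladSum W k) := by
  obtain ⟨l, f, hL⟩ := exists_eig (lad W) (lad_symm W)
  have hP : ∀ a b, 0 ≤ lad W a b := by
    intro a b
    unfold lad
    exact mul_nonneg (mul_nonneg (Real.sqrt_nonneg _) (Real.sqrt_nonneg _))
      (mul_nonneg (h0 _ _) (h0 _ _))
  obtain ⟨m, rfl⟩ : ∃ m, k = 2 * m + 3 := by
    obtain ⟨j, hj⟩ := hk
    exact ⟨j - 1, by omega⟩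
  set s : X × X → ℝ := fun a => Real.sqrt (W a.1 a.2) with hsdef
  set ν : X × X → ℝ := fun i => (∑ e, f i e * s e) ^ 2 with hν
  set n : ℝ := (Fintype.card X : ℝ) with hn
  have hν0 : ∀ i, 0 ≤ ν i := fun i => sq_nonneg _
  -- the mass
  have eS0 : ∑ i, ν i = ∑ x, ∑ y, W x y := by
    rw [hν, hL.parseval, Fintype.sum_prod_type]
    exact sum_congr rfl fun x _ => sum_congr rfl fun y _ => Real.sq_sqrt (h0 x y)
  have eS1 : ∑ i, ν i * l i = ∑ x, ∑ x', ∑ y, ∑ y', om W x x' y y' := by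
    have e := hL.quad s
    have e' : ∑ i, ν i * l i = ∑ i, l i * (∑ e, f i e * s e) ^ 2 :=
      sum_congr rfl fun i _ => mul_comm _ _
    rw [e', ← e, prod4]
    refine sum_congr rfl fun x _ => sum_congr rfl fun x' _ => sum_congr rfl fun y _ =>
      sum_congr rfl fun y' _ => ?_
    simp only [hsdef, lad, om]
    have e1 := Real.mul_self_sqrt (h0 x y)
    have e2 := Real.mul_self_sqrt (h0 x' y')
    calc _ = (Real.sqrt (W x y) * Real.sqrt (W x y)) * (Real.sqrt (W x' y') * Real.sqrt (W x' y')) *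
          (W x y' * W x' y) := by ring
      _ = _ := by rw [e1, e2]
  have eT : ladSum W (2 * m + 3) = ∑ z, ∑ a, ∑ b, mp l f (m + 1) z a * lad W a b *
      mp l f (m + 1) z b := by
    rw [ladSum_eq h0 hL, mp_quad_sum hL]
    rfl
  set D : X × X → ℝ := fun z => n ^ 4 * ∑ a, ∑ b, mp l f (m + 1) z a * lad W a b *
      mp l f (m + 1) z b with hD
  have hD0 : ∀ z, 0 ≤ D z := fun z => mul_nonneg (by positivity)
    (sum_nonneg fun a _ => sum_nonneg fun b _ => mul_nonneg (mul_nonneg (mp_nonneg hL hP _ _ _)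
      (hP _ _)) (mp_nonneg hL hP _ _ _))
  have eD : ∑ z, D z = n ^ 4 * ladSum W (2 * m + 3) := by rw [eT, mul_sum]
  have hT : 0 ≤ n ^ 4 * ladSum W (2 * m + 3) := by rw [← eD]; exact sum_nonneg fun z _ => hD0 z
  -- Cauchy-Schwarz
  have hpt : ∀ z, cf l f s (m + 1) z ^ 2 ≤ Real.sqrt (cf l f s m z ^ 2 * D z) := by
    intro z
    refine Real.le_sqrt_of_sq_le ?_
    have := at_point h0 h1 hL m z
    calc (cf l f s (m + 1) z ^ 2) ^ 2 = cf l f s (m + 1) z ^ 4 := by ring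
      _ ≤ _ := this
  have hcs : (∑ z, cf l f s (m + 1) z ^ 2) ^ 2 ≤ (∑ z, cf l f s m z ^ 2) * ∑ z, D z := by
    refine le_trans (pow_le_pow_left₀ (sum_nonneg fun z _ => sq_nonneg _)
      (sum_le_sum fun z _ => hpt z) 2) ?_
    refine sum_sq_le_sum_mul_sum_of_sq_eq_mul _ (fun z _ => sq_nonneg _) (fun z _ => hD0 z)
      fun z _ => ?_
    exact Real.sq_sqrt (mul_nonneg (sq_nonneg _) (hD0 z))
  rw [cf_sq hL, cf_sq hL, eD] at hcs
  have fin := combine ν l hν0 m hT hcs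
  rw [eS0, eS1] at fin
  exact fin

end main

end Vale.Agent.P050.H173
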