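import Vale.Agent.P050.H173.Rich
import Vale.Agent.P050.H148.Graph

set_option linter.all false

/-!
Moebius ladders in graphs with many cycles of length 4.
-/

namespace Vale.Agent.P050.H173

open Finset Vale.Agent.P050.H148

section weighted

variable {X : Type*} [Fintype X]

/-- The density of the cycle with four vertices in a weighted graph: the mean of
`W x y * W x' y' * (W x y' * W x' y)`. -/
noncomputable def c4Density (W : X → X → ℝ) : ℝ :=
  (∑ x, ∑ x', ∑ y, ∑ y', W x y * W x' y' * (W x y' * W x' y)) / (Fintype.card X : ℝ) ^ 4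

/-- `t(C₄) ^ (k+1) ≤ p ^ k t(M_k)` -/
theorem rich (W : X → X → ℝ) (hs : ∀ x y, W x y = W y x) (h0 : ∀ x y, 0 ≤ W x y)
    (h1 : ∀ x y, W x y ≤ 1) [Nonempty X] (k : ℕ) [NeZero k] (hk : Odd k) (hk3 : 3 ≤ k) :
    c4Density W ^ (k + 1) ≤
      ((∑ x, ∑ y, W x y) / (Fintype.card X : ℝ) ^ 2) ^ k * ladderDensity W k := by
  classical
  have hn0 : (0 : ℝ) < Fintype.card X := by exact_mod_cast Fintype.card_pos
  have key := rich_sum hs h0 h1 k hk hk3
  unfold ladderDensity c4Density
  rw [← ladSum_two, div_pow, div_pow, div_mul_div_comm, div_le_div_iff₀ (by positivity)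
    (by positivity)]
  simp only [om] at key
  set n : ℝ := (Fintype.card X : ℝ)
  calc _ ≤ ((∑ x, ∑ y, W x y) ^ k * (n ^ 4 * ladSum W k)) * ((n ^ 2) ^ k * n ^ (2 * k)) :=
        mul_le_mul_of_nonneg_right key (by positivity)
    _ = _ := by
        have e : (n ^ 4) ^ (k + 1) = n ^ 4 * ((n ^ 2) ^ k * n ^ (2 * k)) := by
          rw [← pow_mul, ← pow_mul, ← pow_add, ← pow_add]; congr 1; ring
        rw [e]; ring

theorem c4Density_nonneg (W : X → X → ℝ) (h0 : ∀ x y, 0 ≤ W x y) : 0 ≤ c4Density W := by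
  unfold c4Density
  exact div_nonneg (sum_nonneg fun x _ => sum_nonneg fun x' _ => sum_nonneg fun y _ =>
    sum_nonneg fun y' _ => mul_nonneg (mul_nonneg (h0 _ _) (h0 _ _))
      (mul_nonneg (h0 _ _) (h0 _ _))) (by positivity)

theorem ladderDensity_nonneg (W : X → X → ℝ) (h0 : ∀ x y, 0 ≤ W x y) (k : ℕ) [NeZero k] :
    0 ≤ ladderDensity W k := by
  unfold ladderDensity
  exact div_nonneg (sum_nonneg fun x _ => sum_nonneg fun y _ => prod_nonneg fun i _ =>
    mul_nonneg (h0 _ _) (mul_nonneg (h0 _ _) (h0 _ _))) (by positivity)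

/-- the ladder inequality for weighted graphs with many cycles of length 4 -/
theorem weighted_rich (W : X → X → ℝ) (hs : ∀ x y, W x y = W y x) (h0 : ∀ x y, 0 ≤ W x y)
    (h1 : ∀ x y, W x y ≤ 1) [Nonempty X] {p : ℝ}
    (hp : (∑ x, ∑ y, W x y) / (Fintype.card X : ℝ) ^ 2 = p) (k : ℕ) [NeZero k] (hk : Odd k)
    (hk3 : 3 ≤ k) (h : p ^ (4 * k) ≤ c4Density W ^ (k + 1)) :
    p ^ (3 * k) ≤ ladderDensity W k := by
  have hp0 : 0 ≤ p := by
    rw [← hp]
    exact div_nonneg (sum_nonneg fun x _ => sum_nonneg fun y _ => h0 _ _) (by positivity)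
  rcases hp0.lt_or_eq with hpos | hz
  · have key := rich W hs h0 h1 k hk hk3
    rw [hp] at key
    have e : p ^ k * p ^ (3 * k) ≤ p ^ k * ladderDensity W k := by
      rw [← pow_add, show k + 3 * k = 4 * k by ring]
      exact h.trans key
    exact le_of_mul_le_mul_left e (pow_pos hpos k)
  · rw [← hz, zero_pow (by omega)]
    exact ladderDensity_nonneg W h0 k

end weighted

section graph

variable {X : Type*} [Fintype X]

/-- homomorphisms from the cycle with four vertices -/
def homC4 (G : SimpleGraph X) :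
    (SimpleGraph.cycleGraph 4 →g G) ≃ {w : (X × X) × (X × X) // (G.Adj w.1.1 w.2.1 ∧
      G.Adj w.1.2 w.2.2) ∧ (G.Adj w.1.1 w.2.2 ∧ G.Adj w.1.2 w.2.1)} where
  toFun φ := ⟨((φ 0, φ 2), (φ 1, φ 3)), ⟨φ.map_rel (by decide), φ.map_rel (by decide)⟩,
    φ.map_rel (by decide), φ.map_rel (by decide)⟩
  invFun w := ⟨![w.1.1.1, w.1.2.1, w.1.1.2, w.1.2.2], by
    intro a b h
    obtain ⟨⟨h1, h2⟩, h3, h4⟩ := w.2
    fin_cases a <;> fin_cases b
    · exact absurd h (by decide)
    · exact h1
    · exact absurd h (by decide)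
    · exact h3
    · exact h1.symm
    · exact absurd h (by decide)
    · exact h4.symm
    · exact absurd h (by decide)
    · exact absurd h (by decide)
    · exact h4
    · exact absurd h (by decide)
    · exact h2
    · exact h3.symm
    · exact absurd h (by decide)
    · exact h2.symm
    · exact absurd h (by decide)⟩
  left_inv φ := by
    ext a
    fin_cases a <;> rfl
  right_inv w := rfl

theorem hom_c4 (G : SimpleGraph X) [Nonempty X] :
    homDensity (SimpleGraph.cycleGraph 4) G = c4Density (adj G) := by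
  classical
  unfold homDensity c4Density
  rw [Nat.card_eq_fintype_card (α := X), Nat.card_fin]
  congr 1
  rw [Nat.card_congr (homC4 G), Nat.card_eq_fintype_card, Fintype.card_subtype,
    card_eq_sum_ones, sum_filter, Fintype.sum_prod_type, Fintype.sum_prod_type]
  simp only [Fintype.sum_prod_type]
  push_cast
  refine sum_congr rfl fun x _ => sum_congr rfl fun x' _ => sum_congr rfl fun y _ =>
    sum_congr rfl fun y' _ => ?_
  simp only [adj]
  by_cases a : G.Adj x y <;> by_cases b : G.Adj x' y' <;> by_cases c : G.Adj x y' <;>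
    by_cases d : G.Adj x' y <;> simp [a, b, c, d]

/-- `t(C₄) ^ (k+1) ≤ p ^ k t(M_k)` for graphs -/
theorem rich_graph (G : SimpleGraph X) [Nonempty X] (k : ℕ) (hk : Odd k) (hk3 : 3 ≤ k) :
    homDensity (SimpleGraph.cycleGraph 4) G ^ (k + 1) ≤
      edgeDensity G ^ k * homDensity (moebiusLadder k) G := by
  classical
  haveI : NeZero k := ⟨by omega⟩
  rw [hom_ladder, hom_c4, ← adj_sum]
  refine rich (adj G) ?_ ?_ ?_ k hk hk3
  · intro x y; simp only [adj, SimpleGraph.adj_comm]
  · intro x y; simp only [adj]; split_ifs <;> norm_num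
  · intro x y; simp only [adj]; split_ifs <;> norm_num

/-- the ladder inequality for graphs with many cycles of length 4 -/
theorem graph_rich (G : SimpleGraph X) [Nonempty X] (k : ℕ) (hk : Odd k) (hk3 : 3 ≤ k)
    (h : edgeDensity G ^ (4 * k) ≤ homDensity (SimpleGraph.cycleGraph 4) G ^ (k + 1)) :
    edgeDensity G ^ (3 * k) ≤ homDensity (moebiusLadder k) G := by
  classical
  haveI : NeZero k := ⟨by omega⟩
  rw [hom_c4] at h
  rw [hom_ladder]
  refine weighted_rich (adj G) ?_ ?_ ?_ (adj_sum G) k hk hk3 h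
  · intro x y; simp only [adj, SimpleGraph.adj_comm]
  · intro x y; simp only [adj]; split_ifs <;> norm_num
  · intro x y; simp only [adj]; split_ifs <;> norm_num

end graph

end Vale.Agent.P050.H173
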