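import Vale.Agent.P050.H173.One

set_option linter.all false

/-!
Ladders with an odd number of rungs, one vertex being doubled: the logarithmic inequality.
-/

namespace Vale.Agent.P050.H173

open Finset Vale.Agent.P050.H148 Vale.Agent.P050.H180

section global_

variable {X : Type*} [Fintype X] [DecidableEq X] [Nonempty X] {W : X → X → ℝ}

/-- a modified pair of steps: the logarithmic inequality -/
theorem gen_log (hW : ∀ x y, 0 < W x y) (i : ℕ) (U : X × X → X × X → ℝ)
    (hU : ∀ e w, 0 < U e w) {A2 : ℝ} (hA2 : A2 ≤ ∑ a, ∑ b, rho W a * kp (qq W) 1 a b *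
      (Real.log (Real.sqrt (U a b * kp (lad W) 1 a b)) - Real.log (kp (qq W) 1 a b))) :
    2 * A2 + (2 * (i : ℝ) + 3) * (∑ a, rho W a * Real.log (rr W a)) -
      2 * (en (qq W) (rho W) (1 + i + 1) - en (qq W) (rho W) (1 + i + 1 + 1)) ≤
      Real.log (∑ e, ∑ w, U e w * kp (lad W) (2 * i + 4) w e) := by
  have hl0 : ∀ a b, 0 < lad W a b := lad_pos hW
  have hls : ∀ a b, lad W a b = lad W b a := fun a b => lad_symm W a b
  have hT0 : ∀ a b, 0 < kp (lad W) i a b := kp_pos hl0 i
  have hS0 : ∀ a b, 0 < kp (lad W) 1 a b := kp_pos hl0 1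
  have hr0 : ∀ a, 0 < rho W a := rho_pos hW
  have hQ0 : ∀ a b, 0 < qq W a b := qq_pos hW
  have hQ1 : ∀ a, ∑ b, qq W a b = 1 := qq_sum hW
  have hQs : ∀ b, ∑ a, rho W a * qq W a b = rho W b := qq_stat hW
  set G2 : X × X → X × X → ℝ := fun e w => Real.sqrt (U e w * kp (lad W) 1 e w) with hG2
  have hG20 : ∀ e w, 0 < G2 e w := fun e w =>
    Real.sqrt_pos.mpr (mul_pos (hU e w) (hS0 e w))
  set G : X × X → X × X → ℝ := fun e a => ∑ w, G2 e w * kp (lad W) i w a with hG
  have hG0 : ∀ e a, 0 < G e a := fun e a =>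
    sum_pos (fun w _ => mul_pos (hG20 e w) (hT0 w a)) univ_nonempty
  set F1 : X × X → X × X → ℝ := fun e a => ∑ w, U e w * kp (lad W) i w a with hF1
  have hF10 : ∀ e a, 0 < F1 e a := fun e a =>
    sum_pos (fun w _ => mul_pos (hU e w) (hT0 w a)) univ_nonempty
  set F2 : X × X → X × X → ℝ := kp (lad W) (1 + i + 1) with hF2
  have hF20 : ∀ e a, 0 < F2 e a := kp_pos hl0 _
  -- Cauchy-Schwarz
  have hGF : ∀ e a, G e a ≤ Real.sqrt (F1 e a) * Real.sqrt (F2 e a) := by
    intro e a
    have e1 : F2 e a = ∑ w, kp (lad W) 1 e w * kp (lad W) i w a := kp_add _ 1 i e a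
    rw [e1]
    refine le_trans (le_of_eq ?_) (Real.sum_sqrt_mul_sqrt_le univ
      (f := fun w => U e w * kp (lad W) i w a) (g := fun w => kp (lad W) 1 e w *
        kp (lad W) i w a) (fun w => (mul_pos (hU e w) (hT0 w a)).le)
      (fun w => (mul_pos (hS0 e w) (hT0 w a)).le))
    refine sum_congr rfl fun w _ => ?_
    simp only [hG2]
    rw [← Real.sqrt_mul (mul_pos (hU e w) (hT0 w a)).le]
    have e2 : U e w * kp (lad W) i w a * (kp (lad W) 1 e w * kp (lad W) i w a) =
        U e w * kp (lad W) 1 e w * kp (lad W) i w a ^ 2 := by ring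
    rw [e2, Real.sqrt_mul (mul_pos (hU e w) (hS0 e w)).le,
      Real.sqrt_sq (hT0 w a).le]
  have hAM : ∀ e, ∑ a, ∑ b, G e a * lad W a b * G e b ≤
      ∑ a, ∑ b, F1 e a * lad W a b * F2 e b := by
    intro e
    have e1 : ∑ a, ∑ b, F1 e a * lad W a b * F2 e b =
        ∑ a, ∑ b, 1 / 2 * (F1 e a * F2 e b + F2 e a * F1 e b) * lad W a b := by
      have e2 : ∑ a, ∑ b, F2 e a * F1 e b * lad W a b =
          ∑ a, ∑ b, F1 e a * lad W a b * F2 e b := by
        rw [sum_comm]
        exact sum_congr rfl fun a _ => sum_congr rfl fun b _ => by rw [hls b a]; ring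
      have e3 : ∀ a b, 1 / 2 * (F1 e a * F2 e b + F2 e a * F1 e b) * lad W a b =
          1 / 2 * (F1 e a * lad W a b * F2 e b) + 1 / 2 * (F2 e a * F1 e b * lad W a b) := by
        intro a b; ring
      simp only [e3, sum_add_distrib, ← mul_sum]
      rw [e2]; ring
    rw [e1]
    refine sum_le_sum fun a _ => sum_le_sum fun b _ => ?_
    have h1 := mul_le_mul (hGF e a) (hGF e b) (hG0 e b).le
      (mul_nonneg (Real.sqrt_nonneg _) (Real.sqrt_nonneg _))
    have q1 := Real.mul_self_sqrt (hF10 e a).le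
    have q2 := Real.mul_self_sqrt (hF20 e a).le
    have q3 := Real.mul_self_sqrt (hF10 e b).le
    have q4 := Real.mul_self_sqrt (hF20 e b).le
    set x1 := Real.sqrt (F1 e a)
    set x2 := Real.sqrt (F2 e a)
    set x3 := Real.sqrt (F1 e b)
    set x4 := Real.sqrt (F2 e b)
    have h2 : x1 * x2 * (x3 * x4) ≤ 1 / 2 * (F1 e a * F2 e b + F2 e a * F1 e b) := by
      rw [← q1, ← q2, ← q3, ← q4]
      nlinarith [sq_nonneg (x1 * x4 - x2 * x3)]
    calc G e a * lad W a b * G e b = G e a * G e b * lad W a b := by ring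
      _ ≤ _ := mul_le_mul_of_nonneg_right (h1.trans h2) (hl0 a b).le
  -- the closed walk
  have htot : ∑ e, ∑ a, ∑ b, F1 e a * lad W a b * F2 e b =
      ∑ e, ∑ w, U e w * kp (lad W) (2 * i + 4) w e := by
    refine sum_congr rfl fun e _ => ?_
    have e1 : ∀ w, kp (lad W) (2 * i + 4) w e =
        ∑ a, ∑ b, kp (lad W) i w a * lad W a b * F2 e b := by
      intro w
      have e2 : 2 * i + 4 = i + (i + 3) + 1 := by ring
      rw [e2, kp_add]
      refine sum_congr rfl fun a _ => ?_
      have e3 : i + 3 = (i + 2) + 1 := rfl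
      rw [e3, kp_left, mul_sum]
      refine sum_congr rfl fun b _ => ?_
      have e4 : F2 e b = kp (lad W) (i + 2) b e := by
        simp only [hF2]
        rw [kp_symm hls, show 1 + i + 1 = i + 2 by ring]
      rw [e4]; ring
    simp only [e1, hF1]
    calc ∑ a, ∑ b, (∑ w, U e w * kp (lad W) i w a) * lad W a b * F2 e b
        = ∑ a, ∑ b, ∑ w, U e w * (kp (lad W) i w a * lad W a b * F2 e b) := by
          refine sum_congr rfl fun a _ => sum_congr rfl fun b _ => ?_
          rw [sum_mul, sum_mul]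
          exact sum_congr rfl fun w _ => by ring
      _ = ∑ a, ∑ w, ∑ b, U e w * (kp (lad W) i w a * lad W a b * F2 e b) :=
          sum_congr rfl fun a _ => sum_comm
      _ = ∑ w, ∑ a, ∑ b, U e w * (kp (lad W) i w a * lad W a b * F2 e b) := sum_comm
      _ = _ := by
          refine sum_congr rfl fun w _ => ?_
          rw [mul_sum]
          refine sum_congr rfl fun a _ => ?_
          rw [mul_sum]
  -- assembling
  have g2 := weight_step (S := lad W) hQ0 hl0 hQ1 hQs hr0 i
  rw [gain_zero hW] at g2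
  have g3 := prod_step (S := G2) (T := kp (lad W) i) hQ0 hG20 hT0 hQ1 hQs hr0 1 i
  have g4 := closing hW (1 + i + 1) G hG0 (A := A2 +
    ((i : ℝ) + 1) * (∑ a, rho W a * Real.log (rr W a))) (by linarith)
  have g5 : Real.log (∑ e, ∑ a, ∑ b, G e a * lad W a b * G e b) ≤
      Real.log (∑ e, ∑ w, U e w * kp (lad W) (2 * i + 4) w e) := by
    rw [← htot]
    refine Real.log_le_log ?_ (sum_le_sum fun e _ => hAM e)
    exact sum_pos (fun e _ => sum_pos (fun a _ => sum_pos (fun b _ => mul_pos (mul_pos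
      (hG0 _ _) (hl0 _ _)) (hG0 _ _)) univ_nonempty) univ_nonempty) univ_nonempty
  linarith

omit [DecidableEq X] [Nonempty X] in
theorem cod_sq (W : X → X → ℝ) : ∑ x, ∑ x', cod W x x' ^ 2 = zc W := by
  unfold zc
  have e1 : ∀ a : X × X, W a.1 a.2 * rr W a =
      ∑ x', W a.1 a.2 * (W x' a.2 * cod W a.1 x') := by
    intro a
    rw [← cod_rr, mul_sum]
  simp only [e1]
  rw [Fintype.sum_prod_type]
  refine sum_congr rfl fun x _ => ?_
  rw [sum_comm]
  refine sum_congr rfl fun x' _ => ?_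
  rw [sq]
  nth_rewrite 1 [cod]
  rw [sum_mul]
  exact sum_congr rfl fun y _ => by ring

/-- Gibbs' inequality for pairs with common neighbours -/
theorem gibbs_cod (hW : ∀ x y, 0 < W x y) (π : X → X → ℝ) (hπ : ∀ x x', 0 < π x x')
    (h1 : ∑ x, ∑ x', π x x' = 1) : 2 * ∑ x, ∑ x', π x x' * Real.log (cod W x x') ≤
      Real.log (zc W) + ∑ x, ∑ x', π x x' * Real.log (π x x') := by
  have key := logsum (ι := X × X) (fun p => π p.1 p.2) (fun p => cod W p.1 p.2 ^ 2)
    (fun p => hπ _ _) (fun p => pow_pos (cod_pos hW _ _) 2)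
  have s0 : ∑ p : X × X, π p.1 p.2 = 1 := by rw [Fintype.sum_prod_type]; exact h1
  have s1 : ∑ p : X × X, cod W p.1 p.2 ^ 2 = zc W := by
    rw [Fintype.sum_prod_type]; exact cod_sq W
  have s2 : ∑ p : X × X, π p.1 p.2 * (Real.log (π p.1 p.2) - Real.log (cod W p.1 p.2 ^ 2)) =
      ∑ x, ∑ x', π x x' * Real.log (π x x') - 2 * ∑ x, ∑ x', π x x' *
        Real.log (cod W x x') := by
    rw [Fintype.sum_prod_type, mul_sum, ← sum_sub_distrib]
    refine sum_congr rfl fun x _ => ?_
    rw [mul_sum, ← sum_sub_distrib]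
    refine sum_congr rfl fun x' _ => ?_
    rw [Real.log_pow]; push_cast; ring
  rw [s0, s1, s2, Real.log_one, one_mul, zero_sub] at key
  linarith

omit [DecidableEq X] in
/-- data processing for one of the two coordinates -/
theorem marg_le {r : X × X → ℝ} {q : X × X → X × X → ℝ} (hr : ∀ a, 0 < r a)
    (hq : ∀ a b, 0 < q a b) (h1 : ∀ a, ∑ b, q a b = 1) (hs : ∀ b, ∑ a, r a * q a b = r b)
    (π : X → X → ℝ) (hπ : ∀ x x', π x x' = ∑ y, ∑ y', r (x, y) * q (x, y) (x', y')) :
    ∑ x, ∑ x', π x x' * Real.log (π x x') ≤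
      2 * ∑ x, (∑ y, r (x, y)) * Real.log (∑ y, r (x, y)) +
      (∑ a, ∑ b, r a * q a b * Real.log (q a b) - ∑ b, r b * Real.log (r b)) := by
  set α : X → ℝ := fun x => ∑ y, r (x, y) with hα
  have hα0 : ∀ x, 0 < α x := fun x => sum_pos (fun y _ => hr _) univ_nonempty
  have hl : ∀ x x', π x x' * (Real.log (π x x') - (Real.log (α x) + Real.log (α x'))) ≤
      ∑ y, ∑ y', r (x, y) * q (x, y) (x', y') *
        (Real.log (q (x, y) (x', y')) - Real.log (r (x', y'))) := by
    intro x x'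
    have key := logsum (ι := X × X) (fun p => r (x, p.1) * q (x, p.1) (x', p.2))
      (fun p => r (x, p.1) * r (x', p.2)) (fun p => mul_pos (hr _) (hq _ _))
      (fun p => mul_pos (hr _) (hr _))
    have s0 : ∑ p : X × X, r (x, p.1) * q (x, p.1) (x', p.2) = π x x' := by
      rw [Fintype.sum_prod_type, hπ]
    have s1 : ∑ p : X × X, r (x, p.1) * r (x', p.2) = α x * α x' := by
      rw [Fintype.sum_prod_type]
      simp only [hα]
      rw [sum_mul_sum]
    have s2 : ∑ p : X × X, r (x, p.1) * q (x, p.1) (x', p.2) *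
        (Real.log (r (x, p.1) * q (x, p.1) (x', p.2)) - Real.log (r (x, p.1) * r (x', p.2))) =
        ∑ y, ∑ y', r (x, y) * q (x, y) (x', y') *
        (Real.log (q (x, y) (x', y')) - Real.log (r (x', y'))) := by
      rw [Fintype.sum_prod_type]
      refine sum_congr rfl fun y _ => sum_congr rfl fun y' _ => ?_
      rw [Real.log_mul (hr _).ne' (hq _ _).ne', Real.log_mul (hr _).ne' (hr _).ne']
      ring
    rw [s0, s1, s2, Real.log_mul (hα0 x).ne' (hα0 x').ne'] at key
    exact key
  have hsum := sum_le_sum fun x (_ : x ∈ univ) => sum_le_sum fun x' (_ : x' ∈ univ) => hl x x'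
  have m1 : ∀ x, ∑ x', π x x' = α x := by
    intro x
    simp only [hπ, hα]
    rw [sum_comm]
    refine sum_congr rfl fun y _ => ?_
    have e1 := h1 (x, y)
    rw [Fintype.sum_prod_type] at e1
    simp only [← mul_sum]
    rw [e1, mul_one]
  have m2 : ∀ x', ∑ x, π x x' = α x' := by
    intro x'
    simp only [hπ, hα]
    have e1 : ∀ y', r (x', y') = ∑ x, ∑ y, r (x, y) * q (x, y) (x', y') := by
      intro y'
      rw [← hs (x', y'), Fintype.sum_prod_type]
    simp only [e1]
    have e2 : ∀ x, ∑ y, ∑ y', r (x, y) * q (x, y) (x', y') =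
        ∑ y', ∑ y, r (x, y) * q (x, y) (x', y') := fun x => sum_comm
    simp only [e2]
    rw [sum_comm]
  have t1 : ∑ x, ∑ x', π x x' * (Real.log (π x x') - (Real.log (α x) + Real.log (α x'))) =
      ∑ x, ∑ x', π x x' * Real.log (π x x') - 2 * ∑ x, α x * Real.log (α x) := by
    have e1 : ∑ x, ∑ x', π x x' * Real.log (α x) = ∑ x, α x * Real.log (α x) := by
      refine sum_congr rfl fun x _ => ?_
      rw [← sum_mul, m1]
    have e2 : ∑ x, ∑ x', π x x' * Real.log (α x') = ∑ x, α x * Real.log (α x) := by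
      rw [sum_comm]
      refine sum_congr rfl fun x _ => ?_
      rw [← sum_mul, m2]
    have e3 : ∀ x x', π x x' * (Real.log (π x x') - (Real.log (α x) + Real.log (α x'))) =
        π x x' * Real.log (π x x') - (π x x' * Real.log (α x) + π x x' * Real.log (α x')) := by
      intro x x'; ring
    simp only [e3, sum_sub_distrib, sum_add_distrib]
    rw [e1, e2]; ring
  have t2 : ∑ x, ∑ x', ∑ y, ∑ y', r (x, y) * q (x, y) (x', y') *
        (Real.log (q (x, y) (x', y')) - Real.log (r (x', y'))) =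
      ∑ a, ∑ b, r a * q a b * Real.log (q a b) - ∑ b, r b * Real.log (r b) := by
    have e1 : ∑ a, ∑ b, r a * q a b * Real.log (r b) = ∑ b, r b * Real.log (r b) := by
      rw [sum_comm]
      refine sum_congr rfl fun b _ => ?_
      rw [← sum_mul, hs]
    rw [← e1, ← sum_sub_distrib]
    rw [Fintype.sum_prod_type]
    refine sum_congr rfl fun x _ => ?_
    rw [sum_comm]
    refine sum_congr rfl fun y _ => ?_
    rw [← sum_sub_distrib, Fintype.sum_prod_type]
    refine sum_congr rfl fun x' _ => sum_congr rfl fun y' _ => ?_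
    ring
  rw [t1, t2] at hsum
  linarith

/-- the entropy of one end of an edge, from the number of four-cycles -/
theorem side_ent (hW : ∀ x y, 0 < W x y) {r : X × X → ℝ} (hr : ∀ a, 0 < r a)
    (hr1 : ∑ a, r a = 1) :
    ∑ x, (∑ y, r (x, y)) * Real.log (∑ y, r (x, y)) ≤ 1 / 2 * Real.log (zc W) +
      2 * (∑ a, r a * Real.log (r a) - ∑ a, r a * Real.log (W a.1 a.2)) +
      Real.log (Fintype.card X) := by
  set α : X → ℝ := fun x => ∑ y, r (x, y) with hα
  set β : X → ℝ := fun y => ∑ x, r (x, y) with hβ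
  have hα0 : ∀ x, 0 < α x := fun x => sum_pos (fun y _ => hr _) univ_nonempty
  have hβ0 : ∀ y, 0 < β y := fun y => sum_pos (fun x _ => hr _) univ_nonempty
  set κ : X → X → ℝ := fun x x' => ∑ y, r (x, y) * r (x', y) / β y with hκ
  have hu0 : ∀ x x' y, 0 < r (x, y) * r (x', y) / β y := fun x x' y =>
    div_pos (mul_pos (hr _) (hr _)) (hβ0 y)
  have hκ0 : ∀ x x', 0 < κ x x' := fun x x' => sum_pos (fun y _ => hu0 x x' y) univ_nonempty
  have m1 : ∀ x y, ∑ x', r (x, y) * r (x', y) / β y = r (x, y) := by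
    intro x y
    rw [← sum_div, ← mul_sum]
    have : ∑ x', r (x', y) = β y := rfl
    rw [this, mul_div_cancel_right₀ _ (hβ0 y).ne']
  have m1' : ∀ x' y, ∑ x, r (x, y) * r (x', y) / β y = r (x', y) := by
    intro x' y
    rw [← sum_div, ← sum_mul]
    have : ∑ x, r (x, y) = β y := rfl
    rw [this, mul_comm, mul_div_cancel_right₀ _ (hβ0 y).ne']
  have k1 : ∀ x, ∑ x', κ x x' = α x := by
    intro x
    simp only [hκ, hα]
    rw [sum_comm]
    exact sum_congr rfl fun y _ => m1 x y
  have k2 : ∀ x', ∑ x, κ x x' = α x' := by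
    intro x'
    simp only [hκ, hα]
    rw [sum_comm]
    exact sum_congr rfl fun y _ => m1' x' y
  have a1 : ∑ x, α x = 1 := by
    rw [← hr1, Fintype.sum_prod_type]
  have b1 : ∑ y, β y = 1 := by
    rw [← hr1, Fintype.sum_prod_type, sum_comm]
  have κ1 : ∑ x, ∑ x', κ x x' = 1 := by simp only [k1, a1]
  -- (a)
  have ha : ∀ x x', κ x x' * (Real.log (κ x x') - Real.log (cod W x x')) ≤
      ∑ y, r (x, y) * r (x', y) / β y * ((Real.log (r (x, y)) - Real.log (W x y)) +
        (Real.log (r (x', y)) - Real.log (W x' y)) - Real.log (β y)) := by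
    intro x x'
    have key := logsum (fun y => r (x, y) * r (x', y) / β y) (fun y => W x y * W x' y)
      (fun y => hu0 x x' y) (fun y => mul_pos (hW _ _) (hW _ _))
    refine le_trans key (le_of_eq ?_)
    refine sum_congr rfl fun y _ => ?_
    rw [Real.log_div (mul_pos (hr _) (hr _)).ne' (hβ0 y).ne',
      Real.log_mul (hr _).ne' (hr _).ne', Real.log_mul (hW _ _).ne' (hW _ _).ne']
    ring
  have hsum := sum_le_sum fun x (_ : x ∈ univ) => sum_le_sum fun x' (_ : x' ∈ univ) => ha x x'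
  have t1 : ∑ x, ∑ x', ∑ y, r (x, y) * r (x', y) / β y * ((Real.log (r (x, y)) -
        Real.log (W x y)) + (Real.log (r (x', y)) - Real.log (W x' y)) - Real.log (β y)) =
      2 * (∑ a, r a * Real.log (r a) - ∑ a, r a * Real.log (W a.1 a.2)) -
        ∑ y, β y * Real.log (β y) := by
    have e1 : ∑ x, ∑ x', ∑ y, r (x, y) * r (x', y) / β y * (Real.log (r (x, y)) -
        Real.log (W x y)) = ∑ a, r a * Real.log (r a) - ∑ a, r a * Real.log (W a.1 a.2) := by
      rw [← sum_sub_distrib, Fintype.sum_prod_type]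
      refine sum_congr rfl fun x _ => ?_
      rw [sum_comm]
      refine sum_congr rfl fun y _ => ?_
      rw [← sum_mul, m1]; ring
    have e2 : ∑ x, ∑ x', ∑ y, r (x, y) * r (x', y) / β y * (Real.log (r (x', y)) -
        Real.log (W x' y)) = ∑ a, r a * Real.log (r a) - ∑ a, r a * Real.log (W a.1 a.2) := by
      rw [← sum_sub_distrib, Fintype.sum_prod_type, sum_comm]
      refine sum_congr rfl fun x' _ => ?_
      rw [sum_comm]
      refine sum_congr rfl fun y _ => ?_
      rw [← sum_mul, m1']; ring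
    have e3 : ∑ x, ∑ x', ∑ y, r (x, y) * r (x', y) / β y * Real.log (β y) =
        ∑ y, β y * Real.log (β y) := by
      have f1 : ∀ x, ∑ x', ∑ y, r (x, y) * r (x', y) / β y * Real.log (β y) =
          ∑ y, r (x, y) * Real.log (β y) := by
        intro x
        rw [sum_comm]
        refine sum_congr rfl fun y _ => ?_
        rw [← sum_mul, m1]
      simp only [f1]
      rw [sum_comm]
      refine sum_congr rfl fun y _ => ?_
      rw [← sum_mul]
    have e4 : ∀ x x' y, r (x, y) * r (x', y) / β y * ((Real.log (r (x, y)) -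
        Real.log (W x y)) + (Real.log (r (x', y)) - Real.log (W x' y)) - Real.log (β y)) =
        r (x, y) * r (x', y) / β y * (Real.log (r (x, y)) - Real.log (W x y)) +
        r (x, y) * r (x', y) / β y * (Real.log (r (x', y)) - Real.log (W x' y)) -
        r (x, y) * r (x', y) / β y * Real.log (β y) := by
      intro x x' y; ring
    simp only [e4, sum_sub_distrib, sum_add_distrib]
    rw [e1, e2, e3]
    ring
  have t0 : ∑ x, ∑ x', κ x x' * (Real.log (κ x x') - Real.log (cod W x x')) =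
      ∑ x, ∑ x', κ x x' * Real.log (κ x x') - ∑ x, ∑ x', κ x x' *
        Real.log (cod W x x') := by
    rw [← sum_sub_distrib]
    refine sum_congr rfl fun x _ => ?_
    rw [← sum_sub_distrib]
    exact sum_congr rfl fun x' _ => by ring
  rw [t0, t1] at hsum
  -- (b)
  have hb := gibbs_cod hW κ hκ0 κ1
  -- (c)
  have hc : 2 * ∑ x, α x * Real.log (α x) ≤ ∑ x, ∑ x', κ x x' * Real.log (κ x x') := by
    have key := logsum (ι := X × X) (fun p => κ p.1 p.2) (fun p => α p.1 * α p.2)
      (fun p => hκ0 _ _) (fun p => mul_pos (hα0 _) (hα0 _))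
    have s0 : ∑ p : X × X, κ p.1 p.2 = 1 := by rw [Fintype.sum_prod_type]; exact κ1
    have s1 : ∑ p : X × X, α p.1 * α p.2 = 1 := by
      rw [Fintype.sum_prod_type, ← sum_mul_sum, a1, one_mul]
    have s2 : ∑ p : X × X, κ p.1 p.2 * (Real.log (κ p.1 p.2) - Real.log (α p.1 * α p.2)) =
        ∑ x, ∑ x', κ x x' * Real.log (κ x x') - 2 * ∑ x, α x * Real.log (α x) := by
      have e1 : ∑ x, ∑ x', κ x x' * Real.log (α x) = ∑ x, α x * Real.log (α x) := by
        refine sum_congr rfl fun x _ => ?_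
        rw [← sum_mul, k1]
      have e2 : ∑ x, ∑ x', κ x x' * Real.log (α x') = ∑ x, α x * Real.log (α x) := by
        rw [sum_comm]
        refine sum_congr rfl fun x _ => ?_
        rw [← sum_mul, k2]
      rw [Fintype.sum_prod_type]
      have e3 : ∀ x x', κ x x' * (Real.log (κ x x') - Real.log (α x * α x')) =
          κ x x' * Real.log (κ x x') - (κ x x' * Real.log (α x) +
            κ x x' * Real.log (α x')) := by
        intro x x'
        rw [Real.log_mul (hα0 x).ne' (hα0 x').ne']; ring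
      simp only [e3, sum_sub_distrib, sum_add_distrib]
      rw [e1, e2]; ring
    rw [s0, s1, s2, Real.log_one, sub_zero, mul_zero] at key
    linarith
  -- (d)
  have hd : -Real.log (Fintype.card X) ≤ ∑ y, β y * Real.log (β y) := by
    have key := logsum β (fun _ => (1 : ℝ)) hβ0 (fun _ => one_pos)
    rw [b1, Real.log_one, one_mul, zero_sub] at key
    simp only [sub_zero, sum_const, card_univ, nsmul_eq_mul, mul_one] at key
    exact key
  linarith

/-- **One doubled vertex: the logarithmic inequality.** -/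
theorem vert_log (hW : ∀ x y, 0 < W x y) (i : ℕ) (hi : 2 ≤ i) :
    (2 * (i : ℝ) + 8) * (Real.log (zc W) - Real.log (∑ a : X × X, W a.1 a.2)) -
      Real.log (Fintype.card X) ≤
      Real.log (∑ e, ∑ w, dbl W e w / cod W e.1 w.1 * kp (lad W) (2 * i + 4) w e) := by
  have hr0 : ∀ a, 0 < rho W a := rho_pos hW
  have hr1 : ∑ a, rho W a = 1 := rho_sum hW
  have hQ0 : ∀ a b, 0 < qq W a b := qq_pos hW
  have hQ1 : ∀ a, ∑ b, qq W a b = 1 := qq_sum hW
  have hQs : ∀ b, ∑ a, rho W a * qq W a b = rho W b := qq_stat hW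
  have hU : ∀ e w : X × X, 0 < dbl W e w / cod W e.1 w.1 := fun e w =>
    div_pos (dbl_pos hW e w) (cod_pos hW _ _)
  have g1 := geo_log hW
  have c1 : ∑ a, ∑ b, rho W a * kp (qq W) 1 a b *
      (Real.log (Real.sqrt (dbl W a b / cod W a.1 b.1 * kp (lad W) 1 a b)) -
        Real.log (kp (qq W) 1 a b)) =
      ∑ a, ∑ b, rho W a * kp (qq W) 1 a b *
      (Real.log (Real.sqrt (dbl W a b * kp (lad W) 1 a b)) - Real.log (kp (qq W) 1 a b)) -
      1 / 2 * ∑ a, ∑ b, rho W a * kp (qq W) 1 a b * Real.log (cod W a.1 b.1) := by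
    rw [mul_sum, ← sum_sub_distrib]
    refine sum_congr rfl fun a _ => ?_
    rw [mul_sum, ← sum_sub_distrib]
    refine sum_congr rfl fun b _ => ?_
    have hk := kp_pos (lad_pos hW) 1 a b
    have hd := dbl_pos hW a b
    have hc := cod_pos hW a.1 b.1
    rw [Real.log_sqrt (mul_pos (div_pos hd hc) hk).le, Real.log_sqrt (mul_pos hd hk).le,
      Real.log_mul (div_pos hd hc).ne' hk.ne', Real.log_mul hd.ne' hk.ne',
      Real.log_div hd.ne' hc.ne']
    ring
  set π : X → X → ℝ := fun x x' => ∑ y, ∑ y', rho W (x, y) * kp (qq W) 1 (x, y) (x', y')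
    with hπ
  have hπ0 : ∀ x x', 0 < π x x' := fun x x' => sum_pos (fun y _ => sum_pos (fun y' _ =>
    mul_pos (hr0 _) (kp_pos hQ0 _ _ _)) univ_nonempty) univ_nonempty
  have c2 : ∑ a, ∑ b, rho W a * kp (qq W) 1 a b * Real.log (cod W a.1 b.1) =
      ∑ x, ∑ x', π x x' * Real.log (cod W x x') := by
    rw [Fintype.sum_prod_type]
    refine sum_congr rfl fun x _ => ?_
    have e1 : ∀ y, ∑ b, rho W (x, y) * kp (qq W) 1 (x, y) b * Real.log (cod W x b.1) =
        ∑ x', ∑ y', rho W (x, y) * kp (qq W) 1 (x, y) (x', y') *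
          Real.log (cod W x x') := fun y => Fintype.sum_prod_type _
    simp only [e1]
    rw [sum_comm]
    refine sum_congr rfl fun x' _ => ?_
    simp only [hπ]
    rw [sum_mul]
    refine sum_congr rfl fun y _ => ?_
    rw [sum_mul]
  have c3 : ∑ x, ∑ x', π x x' = 1 := by
    have e1 : ∑ a, ∑ b, rho W a * kp (qq W) 1 a b = 1 := by
      simp only [← mul_sum, kp_sum hQ1, mul_one, hr1]
    rw [← e1, Fintype.sum_prod_type]
    refine sum_congr rfl fun x _ => ?_
    have e2 : ∀ y, ∑ b, rho W (x, y) * kp (qq W) 1 (x, y) b =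
        ∑ x', ∑ y', rho W (x, y) * kp (qq W) 1 (x, y) (x', y') :=
      fun y => Fintype.sum_prod_type _
    simp only [e2]
    rw [sum_comm (f := fun y x' => ∑ y', rho W (x, y) * kp (qq W) 1 (x, y) (x', y'))]
  have g2 := gibbs_cod hW π hπ0 c3
  have g3 := marg_le hr0 (fun a b => kp_pos hQ0 1 a b) (kp_sum hQ1 1) (kp_stat hQs 1) π
    (fun x x' => rfl)
  have g4 := side_ent hW hr0 hr1
  have g5 := gen_log hW i (fun e w => dbl W e w / cod W e.1 w.1) hU
    (A2 := 3 * (∑ a, rho W a * Real.log (rr W a)) + 1 / 2 * en (qq W) (rho W) 1 -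
      1 / 2 * (∑ a, rho W a * Real.log (W a.1 a.2)) - 1 / 2 * ∑ x, ∑ x', π x x' *
        Real.log (cod W x x')) (by
      rw [c1, c2]; linarith)
  have h3 := en_tele1 hQ0 hQ1 hr0 hQs 1 (i + 1)
  have h4 := en_ge hQ0 hr0 hr1 hQs (1 + (i + 1) + 1)
  have h9 := en_ge hQ0 hr0 hr1 hQs 1
  have h5 := ell_ge hW
  have hen : ∑ a, ∑ b, rho W a * kp (qq W) 1 a b * Real.log (kp (qq W) 1 a b) =
      en (qq W) (rho W) 1 := rfl
  rw [hen] at g3
  have hrel : ∑ a, rho W a * Real.log (rho W a) = ∑ a, rho W a * Real.log (W a.1 a.2) +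
      ∑ a, rho W a * Real.log (rr W a) - Real.log (zc W) := by
    have e1 : Real.log (zc W) = ∑ a, rho W a * Real.log (zc W) := by
      rw [← sum_mul, hr1, one_mul]
    rw [e1, ← sum_add_distrib, ← sum_sub_distrib]
    refine sum_congr rfl fun a _ => ?_
    have e2 : Real.log (rho W a) = Real.log (W a.1 a.2) + Real.log (rr W a) -
        Real.log (zc W) := by
      unfold rho
      rw [Real.log_div (mul_pos (hW _ _) (rr_pos hW a)).ne' (zc_pos hW).ne',
        Real.log_mul (hW _ _).ne' (rr_pos hW a).ne']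
    rw [e2]; ring
  rw [hrel] at h4 h9 g3 g4
  have e0 : 1 + (i + 1) = 1 + i + 1 := rfl
  rw [e0] at h3 h4
  set ell : ℝ := ∑ a, rho W a * Real.log (rr W a) with hell
  set w : ℝ := ∑ a, rho W a * Real.log (W a.1 a.2) with hw
  set E0 : ℝ := en (qq W) (rho W) (1 + i + 1)
  set E1 : ℝ := en (qq W) (rho W) (1 + i + 1 + 1)
  set EJ : ℝ := en (qq W) (rho W) 1
  set Ec : ℝ := ∑ x, ∑ x', π x x' * Real.log (cod W x x')
  set hx : ℝ := ∑ x, (∑ y, rho W (x, y)) * Real.log (∑ y, rho W (x, y))
  set lz : ℝ := Real.log (zc W)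
  set ln : ℝ := Real.log (Fintype.card X)
  have hg : 4 * (E0 - E1) ≤ EJ - (w + ell - lz) := by
    by_cases hE : 0 ≤ E0 - E1
    · have : 4 * (E0 - E1) ≤ (((i + 1 : ℕ) : ℝ) + 1) * (E0 - E1) := by
        refine mul_le_mul_of_nonneg_right ?_ hE
        push_cast
        have : (2 : ℝ) ≤ i := by exact_mod_cast hi
        linarith
      linarith
    · push Not at hE
      linarith
  have h7 : (0 : ℝ) ≤ 2 * (i : ℝ) + 8 := by positivity
  have h8 := mul_le_mul_of_nonneg_left h5 h7
  nlinarith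

end global_

end Vale.Agent.P050.H173
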