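import Vale.Agent.P050.H148.Defs

/-!
Statement-level definitions.
-/

namespace Vale.Agent.P050.H173

/-- The Moebius ladder with `k` rungs (`k` odd), with one vertex doubled: the additional vertex has
the same three neighbours as the vertex `(1, false)`. -/
def vertexDoubled (k : ℕ) : SimpleGraph ((ZMod k × Bool) ⊕ Unit) :=
  (Vale.Agent.P050.H148.moebiusLadder k).comap (Sum.elim id fun _ => (1, false))

end Vale.Agent.P050.H173
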