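import Vale.Agent.P050.H173.Vert
import Vale.Agent.P050.H173.VertDefs
import Vale.Agent.P050.H173.OneGraph

set_option linter.all false

/-!
Moebius ladders with one doubled vertex.
-/

namespace Vale.Agent.P050.H173

open Finset Vale.Agent.P050 Vale.Agent.P050.H148 Vale.Agent.P050.H180 Vale.Agent.P050.H223.Dbl
  Filter Topology

section walks

variable {E : Type*} [Fintype E] {m : E → ℝ} {N : E → E → ℝ}

/-- closed walks with a weight of the first three places -/
theorem closed_sum3 (hs : ∀ a b, N a b = N b a) (r : ℕ) (t : E → E → E → ℝ) :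
    ∑ y : Fin (2 * r + 4 + 1) → E, (∏ i, m (y i)) *
      (pth N (2 * r + 4) y * N (y (Fin.last _)) (y 0)) *
      t (y 0) (y ⟨1, by omega⟩) (y ⟨2, by omega⟩) =
    ∑ z, m z * ∑ a, m a * (∑ b, m b * N z b * N b a * t z b a) *
      it m N (2 * r + 1) (fun a => bb m N z a) a := by
  rw [Vale.Agent.P050.H223.Dbl.sum_cons]
  refine sum_congr rfl fun z _ => ?_
  rw [Vale.Agent.P050.H223.Dbl.sum_cons]
  have e1 : ∀ (b : E), ∑ v : Fin (2 * r + 3) → E,
      (∏ i, m ((Fin.cons z (Fin.cons b v : Fin (2 * r + 4) → E) : Fin (2 * r + 4 + 1) → E) i)) *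
      (pth N (2 * r + 4) (Fin.cons z (Fin.cons b v : Fin (2 * r + 4) → E) :
          Fin (2 * r + 4 + 1) → E) *
        N ((Fin.cons z (Fin.cons b v : Fin (2 * r + 4) → E) : Fin (2 * r + 4 + 1) → E)
          (Fin.last _)) ((Fin.cons z (Fin.cons b v : Fin (2 * r + 4) → E) :
            Fin (2 * r + 4 + 1) → E) 0)) *
      t ((Fin.cons z (Fin.cons b v : Fin (2 * r + 4) → E) : Fin (2 * r + 4 + 1) → E) 0)
          ((Fin.cons z (Fin.cons b v : Fin (2 * r + 4) → E) : Fin (2 * r + 4 + 1) → E)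
            ⟨1, by omega⟩)
          ((Fin.cons z (Fin.cons b v : Fin (2 * r + 4) → E) : Fin (2 * r + 4 + 1) → E)
            ⟨2, by omega⟩) =
      m z * ∑ v : Fin (2 * r + 3) → E, (m b * N z b * N b (v 0) * t z b (v 0)) * (
        (∏ i, m (v i)) * pth N (2 * r + 2) v *
        (N (v (Fin.last _)) z)) := by
    intro b
    rw [mul_sum]
    refine sum_congr rfl fun v _ => ?_
    rw [Vale.Agent.P050.H223.Dbl.prod_cons', Vale.Agent.P050.H223.Dbl.prod_cons']
    have p1 : pth N (2 * r + 4) (Fin.cons z (Fin.cons b v : Fin (2 * r + 4) → E) :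
        Fin (2 * r + 4 + 1) → E) = N z b * (N b (v 0) * pth N (2 * r + 2) v) := by
      rw [pth_cons (2 * r + 3) z (Fin.cons b v), pth_cons (2 * r + 2) b v, Fin.cons_zero]
    rw [p1]
    have p2 : (Fin.cons z (Fin.cons b v : Fin (2 * r + 4) → E) : Fin (2 * r + 4 + 1) → E)
        (Fin.last _) = v (Fin.last _) := rfl
    have p3 : (Fin.cons z (Fin.cons b v : Fin (2 * r + 4) → E) : Fin (2 * r + 4 + 1) → E)
        ⟨2, by omega⟩ = v 0 := rfl
    have p4 : (Fin.cons z (Fin.cons b v : Fin (2 * r + 4) → E) : Fin (2 * r + 4 + 1) → E)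
        ⟨1, by omega⟩ = b := rfl
    rw [p2, p3, p4, Fin.cons_zero]
    ring
  simp only [e1]
  rw [← mul_sum]
  congr 1
  rw [sum_comm]
  have e2 : ∀ v : Fin (2 * r + 3) → E, ∑ b, (m b * N z b * N b (v 0) * t z b (v 0)) * (
        (∏ i, m (v i)) * pth N (2 * r + 2) v *
        (N (v (Fin.last _)) z)) =
      (∑ b, m b * N z b * N b (v 0) * t z b (v 0)) * (∏ i, m (v i)) * pth N (2 * r + 2) v *
        (N (v (Fin.last _)) z) := by
    intro v
    rw [← sum_mul]
    ring
  simp only [e2]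
  rw [sum_snoc]
  rw [← path_sum (2 * r + 1) (fun a => ∑ b, m b * N z b * N b a * t z b a)
    (fun a => bb m N z a)]
  refine sum_congr rfl fun q _ => ?_
  have e3 : ∀ b : E, (∑ c, m c * N z c * N c ((Fin.snoc q b : Fin (2 * r + 2 + 1) → E) 0) *
        t z c ((Fin.snoc q b : Fin (2 * r + 2 + 1) → E) 0)) *
      (∏ i, m ((Fin.snoc q b : Fin (2 * r + 2 + 1) → E) i)) *
      pth N (2 * r + 2) (Fin.snoc q b : Fin (2 * r + 2 + 1) → E) *
        (N ((Fin.snoc q b : Fin (2 * r + 2 + 1) → E) (Fin.last _)) z) =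
      (∑ c, m c * N z c * N c (q 0) * t z c (q 0)) * (∏ i, m (q i)) * pth N (2 * r + 1) q *
        (m b * N (q (Fin.last _)) b * N b z) := by
    intro b
    rw [Vale.Agent.P050.H223.Dbl.prod_snoc', pth_snoc (2 * r + 1) b q, Fin.snoc_last]
    have p1 : (Fin.snoc q b : Fin (2 * r + 2 + 1) → E) 0 = q 0 := by
      have : (0 : Fin (2 * r + 2 + 1)) = Fin.castSucc (0 : Fin (2 * r + 2)) := rfl
      rw [this, Fin.snoc_castSucc]
    rw [p1]
    ring
  simp only [e3]
  rw [← mul_sum]
  have e4 : ∑ b, m b * N (q (Fin.last _)) b * N b z = bb m N z (q (Fin.last _)) := by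
    rw [bb_comm hs]; rfl
  rw [e4]

end walks

section weights

variable {X : Type*} [Fintype X] {W : X → X → ℝ}

/-- the weight of an additional vertex joined to three vertices -/
def tri (W : X → X → ℝ) (z b a : X × X) : ℝ := ∑ x, W x z.2 * (W x b.2 * W x a.2)

/-- the number of homomorphisms, as a polynomial -/
def vertSum (W : X → X → ℝ) (i : ℕ) : ℝ :=
  ∑ z : ZMod (2 * (i + 1) + 4 + 1) → X × X, (∏ j, (mW W (z j) * nW W (z j) (z (j + 1)))) *
    tri W (z 0) (z 1) (z 2)

theorem vertSum_eq (W : X → X → ℝ) (i : ℕ) : vertSum W i =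
    ∑ z, mW W z * ∑ a, mW W a * (∑ b, mW W b * nW W z b * nW W b a * tri W z b a) *
      it (mW W) (nW W) (2 * (i + 1) + 1) (fun a => bb (mW W) (nW W) z a) a := by
  have key := closed_sum3 (m := mW W) (nW_symm W) (i + 1) (tri W)
  unfold vertSum
  rw [cyc_path (2 * (i + 1) + 4)]
  have s3 : (0 : ZMod (2 * (i + 1) + 4 + 1)) = ((0 : ℕ) : ZMod (2 * (i + 1) + 4 + 1)) := by
    simp
  have s5 : (1 : ZMod (2 * (i + 1) + 4 + 1)) = ((1 : ℕ) : ZMod (2 * (i + 1) + 4 + 1)) := by
    simp
  have s4 : (2 : ZMod (2 * (i + 1) + 4 + 1)) = ((2 : ℕ) : ZMod (2 * (i + 1) + 4 + 1)) := by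
    push_cast; ring
  rw [s3, s4, s5]
  beta_reduce
  rw [res_symm _ 0 (by omega), res_symm _ 1 (by omega), res_symm _ 2 (by omega)]
  exact key

/-- Cauchy-Schwarz for the second end of the middle rung -/
theorem bb_sq (h0 : ∀ x y, 0 ≤ W x y) (z a : X × X) :
    bb (mW W) (nW W) z a ^ 2 ≤ cod W z.1 a.1 *
      ∑ b, mW W b * nW W z b * nW W b a * tri W z b a := by
  have e1 : bb (mW W) (nW W) z a = ∑ y, W z.1 y * W a.1 y *
      ∑ x, W x z.2 * (W x y * W x a.2) := by
    unfold bb mW nW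
    rw [Fintype.sum_prod_type, sum_comm]
    refine sum_congr rfl fun y _ => ?_
    rw [mul_sum]
    exact sum_congr rfl fun x _ => by ring
  have e2 : ∑ b, mW W b * nW W z b * nW W b a * tri W z b a = ∑ y, W z.1 y * W a.1 y *
      (∑ x, W x z.2 * (W x y * W x a.2)) ^ 2 := by
    unfold mW nW tri
    rw [Fintype.sum_prod_type, sum_comm]
    refine sum_congr rfl fun y _ => ?_
    simp only
    rw [← sum_mul]
    have e3 : ∑ x, W x y * (W z.1 y * W x z.2) * (W x a.2 * W a.1 y) = W z.1 y * W a.1 y *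
        ∑ x, W x z.2 * (W x y * W x a.2) := by
      rw [mul_sum]
      exact sum_congr rfl fun x _ => by ring
    rw [e3, sq]; ring
  rw [e1, e2]
  set t : X → ℝ := fun y => ∑ x, W x z.2 * (W x y * W x a.2) with ht
  set g : X → ℝ := fun y => W z.1 y * W a.1 y with hg
  have hg0 : ∀ y, 0 ≤ g y := fun y => mul_nonneg (h0 _ _) (h0 _ _)
  have key := sum_mul_sq_le_sq_mul_sq univ (fun y => Real.sqrt (g y))
    (fun y => Real.sqrt (g y) * t y)
  have f1 : ∀ y, Real.sqrt (g y) * (Real.sqrt (g y) * t y) = g y * t y := by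
    intro y; rw [← mul_assoc, Real.mul_self_sqrt (hg0 y)]
  simp only [f1, mul_pow, Real.sq_sqrt (hg0 _)] at key
  exact key

variable [Nonempty X]

theorem cod_pos' (hW : ∀ x y, 0 < W x y) (x x' : X) : 0 < cod W x x' :=
  sum_pos (fun y _ => mul_pos (hW _ _) (hW _ _)) univ_nonempty

theorem it_pos (hW : ∀ x y, 0 < W x y) (n : ℕ) (g : X × X → ℝ) (hg : ∀ a, 0 < g a)
    (a : X × X) : 0 < it (mW W) (nW W) n g a := by
  induction n generalizing a with
  | zero => exact hg a
  | succ n ih =>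
    exact sum_pos (fun b _ => mul_pos (mul_pos (hW _ _) (mul_pos (hW _ _) (hW _ _))) (ih b))
      univ_nonempty

theorem bb_pos (hW : ∀ x y, 0 < W x y) (z a : X × X) : 0 < bb (mW W) (nW W) z a :=
  sum_pos (fun e _ => mul_pos (mul_pos (hW _ _) (mul_pos (hW _ _) (hW _ _)))
    (mul_pos (hW _ _) (hW _ _))) univ_nonempty

theorem vert_total [DecidableEq X] (hW : ∀ x y, 0 < W x y) (i : ℕ) :
    ∑ e, ∑ w, dbl W e w / cod W e.1 w.1 * kp (lad W) (2 * i + 4) w e ≤ vertSum W i := by
  rw [vertSum_eq]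
  refine sum_le_sum fun e _ => ?_
  rw [mul_sum]
  refine sum_le_sum fun w _ => ?_
  have h0 : ∀ x y, 0 ≤ W x y := fun x y => (hW x y).le
  have e1 := kp_it h0 (2 * i + 3) w e
  have e2 := kp_it h0 0 w e
  have e3 : kp (lad W) 1 e w = kp (lad W) 1 w e := kp_symm (lad_symm W) 1 e w
  have e4 : 2 * i + 4 = 2 * i + 3 + 1 := rfl
  have e5 : 2 * (i + 1) + 1 = 2 * i + 3 := by ring
  rw [e4, e1, e5]
  unfold dbl
  rw [e3, e2]
  have e6 : it (mW W) (nW W) 0 (fun b => bb (mW W) (nW W) e b) w = bb (mW W) (nW W) e w := rfl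
  rw [e6]
  have hs1 : 0 < Real.sqrt (W e.1 e.2) := Real.sqrt_pos.mpr (hW _ _)
  have hs2 : 0 < Real.sqrt (W w.1 w.2) := Real.sqrt_pos.mpr (hW _ _)
  have h1 : Real.sqrt (mW W e) = Real.sqrt (W e.1 e.2) := rfl
  have h2 : Real.sqrt (mW W w) = Real.sqrt (W w.1 w.2) := rfl
  have h3 : mW W e = Real.sqrt (W e.1 e.2) * Real.sqrt (W e.1 e.2) :=
    (Real.mul_self_sqrt (h0 _ _)).symm
  have h4 : mW W w = Real.sqrt (W w.1 w.2) * Real.sqrt (W w.1 w.2) :=
    (Real.mul_self_sqrt (h0 _ _)).symm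
  have hI := it_pos hW (2 * i + 3) (fun b => bb (mW W) (nW W) e b) (fun b => bb_pos hW e b) w
  have hB := bb_sq h0 e w
  have hc := cod_pos' hW e.1 w.1
  rw [h1, h2]
  set I := it (mW W) (nW W) (2 * i + 3) (fun b => bb (mW W) (nW W) e b) w
  set Bw := bb (mW W) (nW W) e w
  set S := ∑ b, mW W b * nW W e b * nW W b w * tri W e b w
  set c := cod W e.1 w.1
  rw [h3, h4]
  set s1 := Real.sqrt (W e.1 e.2)
  set s2 := Real.sqrt (W w.1 w.2)
  have h5 : (s2 * s1 * Bw) ^ 2 / (s1 * s2) / c * (s2 * s1 * I) =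
      s1 * s1 * (s2 * s2 * (Bw ^ 2 / c) * I) := by
    have := hs1.ne'
    have := hs2.ne'
    have := hc.ne'
    field_simp
  rw [h5]
  have h6 : Bw ^ 2 / c ≤ S := by
    rw [div_le_iff₀ hc, mul_comm]
    exact hB
  have h7 : 0 ≤ s1 * s1 := mul_self_nonneg _
  have h8 : 0 ≤ s2 * s2 := mul_self_nonneg _
  exact mul_le_mul_of_nonneg_left (mul_le_mul_of_nonneg_right
    (mul_le_mul_of_nonneg_left h6 h8) hI.le) h7

variable [DecidableEq X]

theorem vert_pow (hW : ∀ x y, 0 < W x y) (i : ℕ) (hi : 2 ≤ i) :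
    zc W ^ (2 * i + 8) ≤ (∑ a : X × X, W a.1 a.2) ^ (2 * i + 8) *
      ((Fintype.card X : ℝ) * vertSum W i) := by
  have h1 : 0 < zc W := zc_pos hW
  have h2 : 0 < ∑ a : X × X, W a.1 a.2 := sum_pos (fun a _ => hW _ _) univ_nonempty
  have h4 : 0 < ∑ e, ∑ w, dbl W e w / cod W e.1 w.1 * kp (lad W) (2 * i + 4) w e :=
    sum_pos (fun e _ => sum_pos (fun w _ => mul_pos (div_pos (dbl_pos hW e w)
      (cod_pos' hW _ _)) (kp_pos (lad_pos hW) _ _ _)) univ_nonempty) univ_nonempty
  have h3 : 0 < vertSum W i := h4.trans_le (vert_total hW i)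
  have hn : (0 : ℝ) < Fintype.card X := by exact_mod_cast Fintype.card_pos
  have key := (vert_log hW i hi).trans (Real.log_le_log h4 (vert_total hW i))
  rw [← Real.log_le_log_iff (pow_pos h1 _) (mul_pos (pow_pos h2 _) (mul_pos hn h3)),
    Real.log_mul (pow_pos h2 _).ne' (mul_pos hn h3).ne', Real.log_mul hn.ne' h3.ne',
    Real.log_pow, Real.log_pow]
  push_cast
  linarith

theorem vert_le (h0 : ∀ x y, 0 ≤ W x y) (i : ℕ) (hi : 2 ≤ i) :
    zc W ^ (2 * i + 8) ≤ (∑ a : X × X, W a.1 a.2) ^ (2 * i + 8) *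
      ((Fintype.card X : ℝ) * vertSum W i) := by
  set V : ℝ → X → X → ℝ := fun ε x y => W x y + ε with hV
  have hVc : ∀ x y, Continuous fun ε => V ε x y := fun x y => by
    simp only [hV]; fun_prop
  have hV0 : V 0 = W := by
    funext x y
    simp only [hV]; ring
  have c1 : Continuous fun ε => zc (V ε) ^ (2 * i + 8) := by
    refine Continuous.pow ?_ _
    unfold zc rr
    refine continuous_finset_sum _ fun a _ => (hVc _ _).mul ?_
    refine continuous_finset_sum _ fun x' _ => continuous_finset_sum _ fun y' _ => ?_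
    exact ((hVc _ _).mul (hVc _ _)).mul (hVc _ _)
  have c2 : Continuous fun ε => (∑ a : X × X, V ε a.1 a.2) ^ (2 * i + 8) *
      ((Fintype.card X : ℝ) * vertSum (V ε) i) := by
    refine Continuous.mul (Continuous.pow ?_ _) (continuous_const.mul ?_)
    · exact continuous_finset_sum _ fun a _ => hVc _ _
    · unfold vertSum tri mW nW
      refine continuous_finset_sum _ fun z _ => Continuous.mul ?_ ?_
      · refine continuous_finset_prod _ fun j _ => ?_
        exact (hVc _ _).mul ((hVc _ _).mul (hVc _ _))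
      · refine continuous_finset_sum _ fun e _ => ?_
        exact (hVc _ _).mul ((hVc _ _).mul (hVc _ _))
  have t1 := (c1.tendsto 0).mono_left (nhdsWithin_le_nhds (s := Set.Ioi (0 : ℝ)))
  have t2 := (c2.tendsto 0).mono_left (nhdsWithin_le_nhds (s := Set.Ioi (0 : ℝ)))
  simp only [hV0] at t1 t2
  refine le_of_tendsto_of_tendsto t1 t2 ?_
  filter_upwards [self_mem_nhdsWithin] with ε hε
  have hp : ∀ x y, 0 < V ε x y := fun x y => by
    simp only [hV]
    have e1 := h0 x y
    have e2 : (0 : ℝ) < ε := hε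
    linarith
  exact vert_pow hp i hi

end weights

section graph

variable {X : Type*} [Fintype X]

theorem ladder_iff (G : SimpleGraph X) (k : ℕ) (z : ZMod k → X × X) :
    IsHom (moebiusLadder k) G ((pairEquiv _ _).symm z) ↔
      ∀ i : ZMod k, G.Adj (z i).1 (z i).2 ∧ G.Adj (z i).1 (z (i + 1)).2 ∧
        G.Adj (z (i + 1)).1 (z i).2 := by
  constructor
  · intro h i
    refine ⟨?_, ?_, ?_⟩
    · exact h (i, false) (i, true) ⟨by simp, Or.inl rfl⟩
    · exact h (i, false) (i + 1, true) ⟨by simp, Or.inr (Or.inr rfl)⟩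
    · exact h (i + 1, false) (i, true) ⟨by simp, Or.inr (Or.inl rfl)⟩
  · intro h1
    have key : ∀ u v : ZMod k, (u = v ∨ u = v + 1 ∨ v = u + 1) → G.Adj (z u).1 (z v).2 := by
      intro u v huv
      rcases huv with h | h | h
      · subst h; exact (h1 u).1
      · subst h; exact (h1 v).2.2
      · subst h; exact (h1 u).2.1
    rintro ⟨u, a⟩ ⟨v, b⟩ ⟨hab, huv⟩
    simp only at hab huv
    cases a <;> cases b
    · exact absurd rfl hab
    · exact key u v huv
    · refine (key v u ?_).symm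
      rcases huv with h | h | h
      · exact Or.inl h.symm
      · exact Or.inr (Or.inr h)
      · exact Or.inr (Or.inl h)
    · exact absurd rfl hab

theorem hom_iff2 (G : SimpleGraph X) (k : ℕ) (z : ZMod k → X × X) (x : X) :
    IsHom (vertexDoubled k) G (Sum.elim ((pairEquiv _ _).symm z) fun _ => x) ↔
      IsHom (moebiusLadder k) G ((pairEquiv _ _).symm z) ∧
        (G.Adj x (z 0).2 ∧ G.Adj x (z 1).2 ∧ G.Adj x (z 2).2) := by
  have h20 : (1 : ZMod k) = 0 + 1 := (zero_add 1).symm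
  have h21 : (2 : ZMod k) = 1 + 1 := by ring
  constructor
  · intro h
    refine ⟨fun u v huv => h (Sum.inl u) (Sum.inl v) huv, ?_, ?_, ?_⟩
    · exact h (Sum.inr ()) (Sum.inl (0, true)) ⟨by simp, Or.inr (Or.inl h20)⟩
    · exact h (Sum.inr ()) (Sum.inl (1, true)) ⟨by simp, Or.inl rfl⟩
    · exact h (Sum.inr ()) (Sum.inl (2, true)) ⟨by simp, Or.inr (Or.inr h21)⟩
  · rintro ⟨h1, h2, h3, h4⟩
    have key : ∀ v : ZMod k × Bool, (moebiusLadder k).Adj (1, false) v →
        G.Adj x ((pairEquiv _ _).symm z v) := by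
      rintro ⟨v, b⟩ ⟨hb, h⟩
      simp only at hb h
      cases b
      · exact absurd rfl hb
      · rcases h with h | h | h
        · rw [← h]; exact h3
        · have : v = 0 := by
            have := eq_sub_of_add_eq h.symm
            rw [this, sub_self]
          rw [this]; exact h2
        · rw [h, ← h21]; exact h4
    rintro (u | u) (v | v) huv
    · exact h1 u v huv
    · have huv' : (moebiusLadder k).Adj u (1, false) := huv
      exact (key u huv'.symm).symm
    · exact key v huv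
    · exact absurd huv ((moebiusLadder k).loopless.irrefl _)

open Classical in
/-- the number of homomorphisms -/
theorem card_vert (G : SimpleGraph X) (k : ℕ) [NeZero k] :
    (Nat.card (vertexDoubled k →g G) : ℝ) = ∑ z : ZMod k → X × X,
      (∏ i, (mu G (z i) * nn G (z i) (z (i + 1)))) * tri (adj G) (z 0) (z 1) (z 2) := by
  rw [card_hom]
  rw [← (Equiv.sumArrowEquivProdArrow (ZMod k × Bool) Unit X).symm.sum_comp,
    Fintype.sum_prod_type]
  rw [← (pairEquiv (ZMod k) X).symm.sum_comp]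
  refine sum_congr rfl fun z _ => ?_
  rw [← (Equiv.funUnique Unit X).symm.sum_comp]
  unfold tri
  rw [mul_sum]
  refine sum_congr rfl fun x _ => ?_
  have e0 : (Equiv.sumArrowEquivProdArrow (ZMod k × Bool) Unit X).symm
      ((pairEquiv (ZMod k) X).symm z, (Equiv.funUnique Unit X).symm x) =
      Sum.elim ((pairEquiv _ _).symm z) fun _ => x := by
    funext u
    rcases u with u | u <;> rfl
  rw [e0]
  have hi := hom_iff2 G k z x
  have hl := ladder_iff G k z
  by_cases h : IsHom (vertexDoubled k) G (Sum.elim ((pairEquiv _ _).symm z) fun _ => x)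
  · rw [if_pos h]
    obtain ⟨h2, g4, g5, g6⟩ := hi.mp h
    have e1 : ∏ i, (mu G (z i) * nn G (z i) (z (i + 1))) = 1 := by
      refine prod_eq_one fun i _ => ?_
      have h3 := hl.mp h2 i
      unfold mu nn
      rw [adj_one h3.1, adj_one h3.2.1, adj_one h3.2.2]
      norm_num
    rw [e1, adj_one g4, adj_one g5, adj_one g6]
    norm_num
  · rw [if_neg h]
    by_contra hne
    apply h
    have hne' := Ne.symm hne
    have n1 := left_ne_zero_of_mul hne'
    have n2 := right_ne_zero_of_mul hne'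
    rw [prod_ne_zero_iff] at n1
    refine hi.mpr ⟨hl.mpr fun i => ?_, ?_, ?_, ?_⟩
    · have n3 := n1 i (mem_univ i)
      have n4 := nn_ne (right_ne_zero_of_mul n3)
      exact ⟨adj_ne (left_ne_zero_of_mul n3), n4.1, n4.2⟩
    · exact adj_ne (left_ne_zero_of_mul n2)
    · exact adj_ne (left_ne_zero_of_mul (right_ne_zero_of_mul n2))
    · exact adj_ne (right_ne_zero_of_mul (right_ne_zero_of_mul n2))

/-- a Moebius ladder with one doubled vertex and the four-cycle -/
theorem vert_graph (G : SimpleGraph X) [Nonempty X] (k : ℕ) (hk : Odd k) (hk11 : 11 ≤ k) :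
    homDensity (SimpleGraph.cycleGraph 4) G ^ (k + 1) ≤
      edgeDensity G ^ (k + 1) * homDensity (vertexDoubled k) G := by
  classical
  obtain ⟨i, rfl⟩ : ∃ i, k = 2 * (i + 1) + 4 + 1 := by
    obtain ⟨j, hj⟩ := hk
    exact ⟨j - 3, by omega⟩
  have hi : 2 ≤ i := by omega
  have hn : 0 < Fintype.card X := Fintype.card_pos
  have hn0 : (0 : ℝ) < Fintype.card X := by exact_mod_cast hn
  have h0 : ∀ x y, 0 ≤ adj G x y := fun x y => by simp only [adj]; split_ifs <;> norm_num
  have hcard : (Nat.card (vertexDoubled (2 * (i + 1) + 4 + 1) →g G) : ℝ) =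
      vertSum (adj G) i := by
    rw [card_vert G]
    rfl
  have hd : homDensity (vertexDoubled (2 * (i + 1) + 4 + 1)) G =
      vertSum (adj G) i / (Fintype.card X : ℝ) ^ (4 * i + 15) := by
    unfold homDensity
    rw [hcard, Nat.card_eq_fintype_card (α := X)]
    congr 2
    rw [Nat.card_sum, Nat.card_prod, Nat.card_zmod]
    simp only [Nat.card_eq_fintype_card, Fintype.card_bool, Fintype.card_unit]
    ring
  have hp := adj_sum G
  have hp' : ∑ a : X × X, adj G a.1 a.2 = edgeDensity G * (Fintype.card X : ℝ) ^ 2 := by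
    rw [Fintype.sum_prod_type, ← hp]; field_simp
  have hfour : homDensity (SimpleGraph.cycleGraph 4) G * (Fintype.card X : ℝ) ^ 4 =
      zc (adj G) := four_density G
  have key := vert_le h0 i hi
  rw [← hfour, hp'] at key
  rw [hd]
  set n : ℝ := (Fintype.card X : ℝ) with hndef
  set T : ℝ := homDensity (SimpleGraph.cycleGraph 4) G with hT
  set p : ℝ := edgeDensity G with hpd
  set D : ℝ := vertSum (adj G) i with hD
  have e1 : (T * n ^ 4) ^ (2 * i + 8) = T ^ (2 * (i + 1) + 4 + 1 + 1) * n ^ (8 * i + 32) := by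
    rw [mul_pow, ← pow_mul]; congr 2; ring
  have e2 : (p * n ^ 2) ^ (2 * i + 8) * (n * D) =
      p ^ (2 * (i + 1) + 4 + 1 + 1) * (D / n ^ (4 * i + 15)) * n ^ (8 * i + 32) := by
    have e3 : n ^ (8 * i + 32) = n ^ (4 * i + 15) * (n ^ (4 * i + 16) * n) := by
      rw [← pow_succ, ← pow_add]; congr 1; ring
    have e4 : (p * n ^ 2) ^ (2 * i + 8) = p ^ (2 * (i + 1) + 4 + 1 + 1) * n ^ (4 * i + 16) := by
      rw [mul_pow, ← pow_mul]; congr 2; ring
    rw [e3, e4]
    field_simp
  rw [e1, e2] at key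
  exact le_of_mul_le_mul_right key (by positivity)

/-- Sidorenko's inequality for Moebius ladders with one doubled vertex -/
theorem vert_sidorenko (G : SimpleGraph X) [Nonempty X] (k : ℕ) (hk : Odd k) (hk11 : 11 ≤ k) :
    edgeDensity G ^ (3 * k + 3) ≤ homDensity (vertexDoubled k) G := by
  have h1 := vert_graph G k hk hk11
  have hnn : 0 ≤ edgeDensity G := by unfold edgeDensity; positivity
  rcases hnn.lt_or_eq with hpos | hz
  · have h5 : edgeDensity G ^ (k + 1) * edgeDensity G ^ (3 * k + 3) ≤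
        edgeDensity G ^ (k + 1) * homDensity (vertexDoubled k) G := by
      refine le_trans (le_of_eq ?_) ((pow_le_pow_left₀ (pow_nonneg hnn 4) (four_ge G)
        (k + 1)).trans h1)
      rw [← pow_add, ← pow_mul]; congr 1; ring
    exact le_of_mul_le_mul_left h5 (by positivity)
  · rw [← hz, zero_pow (by omega)]
    unfold homDensity; positivity

end graph

end Vale.Agent.P050.H173
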